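import Vale.Agent.P280.H170.NL
import Vale.Agent.P280.H63X.Defs
open DirectSum Vale.Agent.P280.T Vale.Agent.P280.H127 Vale.Agent.P280.N

namespace Vale.Agent.P280.H63X

open Vale.Agent.P280.N Vale.Agent.P280.H170

section
variable {r : ℕ} {R : Type} [CommRing R] [Algebra ℂ R]
variable {𝒜 : ℕ × (Fin r → ℤ) → Submodule ℂ R} [GradedAlgebra 𝒜]

theorem nu_mem (H : Hyp 𝒜) (y : FP 𝒜) : y.ν ∈ H587.wts 𝒜 := by
  obtain ⟨f, hf, hfy⟩ := exists_deg_one_ne H.hX.gen y.nv y.fix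
  exact ⟨f, hf, fun h => hfy (by rw [h, map_zero])⟩

theorem low_eq (H : Hyp 𝒜) {l : (Fin r → ℤ) →+ ℤ} {y y' : FP 𝒜} (hy : Low l y) (hy' : Low l y') :
    l y'.ν = l y.ν :=
  le_antisymm (low_wts hy' _ (nu_mem H y)) (low_wts hy _ (nu_mem H y'))

theorem pos_of_low (H : Hyp 𝒜) {l : (Fin r → ℤ) →+ ℤ} {y : FP 𝒜} (hy : Low l y) : Pos l y := by
  intro χ hχ
  have h1 := low_wts hy _ (H587.tangentWeight_mem H.hX y.nv y.fix hχ).2
  rw [map_add] at h1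
  omega

theorem low_of_pos (H : Hyp 𝒜) {l : (Fin r → ℤ) →+ ℤ} {y : FP 𝒜} (hy : Pos l y) : Low l y :=
  H587.low_of_fixed H.hX y.nv y.fix hy

theorem pi_finite (H : Hyp 𝒜) (y : FP 𝒜) : {χ | y.Pi χ}.Finite := by
  have h1 : {χ | y.Pi χ} ⊆ (fun m => m - y.ν) '' H587.wts 𝒜 := by
    intro χ hχ
    exact ⟨_, (H587.tangentWeight_mem H.hX y.nv y.fix hχ).2, by
      change y.ν + χ - y.ν = χ
      rw [add_sub_cancel_left]⟩
  exact ((finite_weights H.hX).image _).subset h1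

theorem ne_zero_of_pi (H : Hyp 𝒜) {y : FP 𝒜} {χ : Fin r → ℤ} (hχ : y.Pi χ) : χ ≠ 0 := by
  rintro rfl
  exact H.iso y.q y.ν y.nv y.fix hχ

end

section
variable {r : ℕ} {R : Type} [CommRing R] [IsDomain R] [Algebra ℂ R]
variable {𝒜 : ℕ × (Fin r → ℤ) → Submodule ℂ R} [GradedAlgebra 𝒜]

/-- **The `sl_2` lemma** in the letters of plan N. -/
theorem root_sub (H : Hyp 𝒜) {N : ℤ} (hN : 0 < N) {χ : Fin r → ℤ} {β : (Fin r → ℤ) →+ ℤ}
    {E F : VF R} (hR : Root 𝒜 N χ β E F) {y : FP 𝒜} (h1 : ¬ y.Pi χ) (h2 : ¬ y.Pi (-χ))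
    {ω : Fin r → ℤ} (hω : y.Pi ω) (hβ : 0 < β ω) : y.Pi (ω - χ) := by
  obtain ⟨De, Df, c, -, -, hDe, hDf, hbr⟩ := root_ders hR
  have hχ := root_fix hN hR
  refine tangentWeight_sub H.hX y.nv y.fix hDe hDf hbr (field_eq_zero y.fix hχ hDe h1)
    (field_eq_zero y.fix (neg_ne_zero.2 hχ) hDf h2) ?_ ?_ hω
  · rw [AddMonoidHom.neg_apply, AddMonoidHom.comp_apply, Int.coe_castAddHom, hR.two]
    push_cast
    have h3 : (N : ℂ) ≠ 0 := by exact_mod_cast hN.ne'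
    exact neg_ne_zero.2 (mul_ne_zero two_ne_zero h3)
  · intro k hk
    rw [AddMonoidHom.neg_apply, AddMonoidHom.neg_apply, AddMonoidHom.comp_apply,
      AddMonoidHom.comp_apply, Int.coe_castAddHom, hR.two] at hk
    have h3 : ((2 * β ω + k * (2 * N) : ℤ) : ℂ) = 0 := by
      push_cast at hk ⊢
      linear_combination -hk
    have h4 : 2 * β ω + k * (2 * N) = 0 := by exact_mod_cast h3
    have h5 : 0 ≤ (k : ℤ) * (2 * N) := by positivity
    omega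

theorem root_add (H : Hyp 𝒜) {N : ℤ} (hN : 0 < N) {χ : Fin r → ℤ} {β : (Fin r → ℤ) →+ ℤ}
    {E F : VF R} (hR : Root 𝒜 N χ β E F) {y : FP 𝒜} (h1 : ¬ y.Pi χ) (h2 : ¬ y.Pi (-χ))
    {ω : Fin r → ℤ} (hω : y.Pi ω) (hβ : β ω < 0) : y.Pi (ω + χ) := by
  obtain ⟨De, Df, c, -, -, hDe, hDf, hbr⟩ := root_ders hR
  have hχ := root_fix hN hR
  refine tangentWeight_add H.hX y.nv y.fix hDe hDf hbr (field_eq_zero y.fix hχ hDe h1)
    (field_eq_zero y.fix (neg_ne_zero.2 hχ) hDf h2) ?_ ?_ hω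
  · rw [AddMonoidHom.neg_apply, AddMonoidHom.comp_apply, Int.coe_castAddHom, hR.two]
    push_cast
    have h3 : (N : ℂ) ≠ 0 := by exact_mod_cast hN.ne'
    exact neg_ne_zero.2 (mul_ne_zero two_ne_zero h3)
  · intro k hk
    rw [AddMonoidHom.neg_apply, AddMonoidHom.neg_apply, AddMonoidHom.comp_apply,
      AddMonoidHom.comp_apply, Int.coe_castAddHom, hR.two] at hk
    have h3 : ((2 * β ω - k * (2 * N) : ℤ) : ℂ) = 0 := by
      push_cast at hk ⊢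
      linear_combination -hk
    have h4 : 2 * β ω - k * (2 * N) = 0 := by exact_mod_cast h3
    have h5 : 0 ≤ (k : ℤ) * (2 * N) := by positivity
    omega



end

end Vale.Agent.P280.H63X
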