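import Vale.Agent.P280.N.A05
import Vale.Agent.P280.H63X.NL
import Vale.Agent.P280.H63X.Defs
open DirectSum Vale.Agent.P280.T Vale.Agent.P280.H127

namespace Vale.Agent.P280.H63X

open Vale.Agent.P280.N

variable {r : ℕ} {R : Type} [CommRing R] [IsDomain R] [Algebra ℂ R]
  {𝒜 : ℕ × (Fin r → ℤ) → Submodule ℂ R} [GradedAlgebra 𝒜]

/-- The direction of the curve, made homogeneous. -/
theorem A05.homog {y : FP 𝒜} {f : R} (hf : f ∈ 𝒜 (1, y.ν)) (hf1 : y.q f = 1) {w : Fin r → ℤ}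
    (hw : w ≠ 0) {x : R} (hx : x ∈ coarse 𝒜 (rl (AddMonoidHom.id (Fin r → ℤ)) y.ν) w) :
    ∃ (D : ℕ) (x' : R), x' ∈ 𝒜 (D, D • y.ν + w) ∧ ∀ v : R →ₗ[ℂ] ℂ, IsTangent y.q v → v x' = v x := by
  have key : ∃ D0 : ℕ, ∀ D, D0 ≤ D → ∃ x' ∈ 𝒜 (D, D • y.ν + w),
      ∀ v : R →ₗ[ℂ] ℂ, IsTangent y.q v → v x' = v x := by
    refine coarse_induction (P := fun x => ∃ D0 : ℕ, ∀ D, D0 ≤ D → ∃ x' ∈ 𝒜 (D, D • y.ν + w),
      ∀ v : R →ₗ[ℂ] ℂ, IsTangent y.q v → v x' = v x) ?_ ?_ ?_ hx
    · exact ⟨0, fun D _ => ⟨0, Submodule.zero_mem _, fun v _ => rfl⟩⟩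
    · rintro a b ⟨D1, h1⟩ ⟨D2, h2⟩
      refine ⟨max D1 D2, fun D hD => ?_⟩
      obtain ⟨a', ha', ha⟩ := h1 D (le_trans (le_max_left _ _) hD)
      obtain ⟨b', hb', hb⟩ := h2 D (le_trans (le_max_right _ _) hD)
      exact ⟨a' + b', Submodule.add_mem _ ha' hb', fun v hv => by
        rw [map_add, map_add, ha v hv, hb v hv]⟩
    · rintro ⟨d, m⟩ hi h hh
      rw [rl_apply, AddMonoidHom.id_apply] at hi
      have hm : m = d • y.ν + w := by rw [← hi]; abel
      refine ⟨d, fun D hD => ⟨f ^ (D - d) * h, ?_, fun v hv => ?_⟩⟩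
      · have h1 := SetLike.mul_mem_graded (SetLike.pow_mem_graded (D - d) hf) hh
        have h2 : (D - d) • ((1 : ℕ), y.ν) + (d, m) = (D, D • y.ν + w) := by
          rw [Prod.smul_mk, Prod.mk_add_mk, hm, ← add_assoc, ← add_smul, Nat.sub_add_cancel hD,
            smul_eq_mul, mul_one, Nat.sub_add_cancel hD]
        rwa [h2] at h1
      · have hq : y.q h = 0 := by
          by_contra hne
          have h3 := y.fix d m h hh hne
          rw [hm] at h3
          exact hw (add_eq_left.1 h3)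
        rw [hv, hq, zero_mul, add_zero, map_pow, hf1, one_pow, one_mul]
  obtain ⟨D0, h⟩ := key
  obtain ⟨x', h1, h2⟩ := h D0 le_rfl
  exact ⟨D0, x', h1, h2⟩

/-- Homogeneous coordinates at a fixed point, with multiplicities. -/
theorem hcoords (hX : IsTorusManifold 𝒜) (y : FP 𝒜) (hiso : ¬ y.Pi 0) :
    ∃ (f : R) (N : ℕ) (U : Fin N → R) (wt : Fin N → Fin r → ℤ) (n : ℕ) (k : Fin n → Fin N)
      (du : Fin n → ℕ) (u : Fin n → R),
      f ∈ 𝒜 (1, y.ν) ∧ y.q f = 1 ∧
      Gens (coarse 𝒜 (rl (AddMonoidHom.id (Fin r → ℤ)) y.ν)) y.q U wt ∧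
      (N : ℕ∞) = (mx y.q).height ∧
      Function.Injective k ∧ (∀ j, (∃ i, k i = j) ↔ wt j ≠ 0) ∧
      (∀ ψ, y.Pi ψ ↔ ∃ i, wt (k i) = ψ) ∧ (∀ i, Crd y (wt (k i)) (du i) (u i)) ∧
      mx y.q ≤ (Ideal.span (Set.range u) ⊔ Ideal.span {f - 1}) ⊔ mx y.q • mx y.q := by
  classical
  have := noeth hX
  obtain ⟨N, U, wt, G, hn⟩ := exists_params_T hX y.nv (fix_of_isFixed y.fix)
  obtain ⟨v, hvT, hvu, hvw, -⟩ := G.exists_dual (fix_of_isFixed y.fix) hn.le
  have hw : ∀ i, HasWeight 𝒜 y.ν (wt i) (v i) := fun i => weight_iff.mp (hvw i)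
  obtain ⟨f0, hf0, hf00⟩ := exists_deg_one_ne hX.gen y.nv y.fix
  obtain ⟨f, hf, hf1⟩ : ∃ f ∈ 𝒜 (1, y.ν), y.q f = 1 :=
    ⟨(y.q f0)⁻¹ • f0, Submodule.smul_mem _ _ hf0, by
      rw [map_smul, smul_eq_mul, inv_mul_cancel₀ hf00]⟩
  set K : Finset (Fin N) := Finset.univ.filter fun j => wt j ≠ 0 with hK
  have hmemK : ∀ j, j ∈ K ↔ wt j ≠ 0 := fun j => by simp [hK]
  set k : Fin K.card → Fin N := fun i => (K.equivFin.symm i : Fin N) with hk
  have hkK : ∀ i, wt (k i) ≠ 0 := fun i => (hmemK _).1 (K.equivFin.symm i).2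
  have hki : ∀ j, wt j ≠ 0 → ∃ i, k i = j := fun j hj =>
    ⟨K.equivFin ⟨j, (hmemK j).2 hj⟩, by rw [hk]; beta_reduce; rw [Equiv.symm_apply_apply]⟩
  have hkinj : Function.Injective k := Subtype.val_injective.comp K.equivFin.symm.injective
  choose du u hu hvu' using fun i => A05.homog hf hf1 (hkK i) (G.hom (k i))
  have hqu : ∀ i, y.q (u i) = 0 := by
    intro i
    by_contra hne
    have h3 := y.fix _ _ _ (hu i) hne
    exact hkK i (add_eq_left.1 h3)
  have hcrd : ∀ i, Crd y (wt (k i)) (du i) (u i) := fun i =>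
    ⟨hu i, hqu i, v (k i), hvT _, hw _, by
      rw [hvu' i _ (hvT _), hvu, if_pos rfl]; exact one_ne_zero⟩
  refine ⟨f, N, U, wt, K.card, k, du, u, hf, hf1, G, hn, hkinj,
    fun j => ⟨fun ⟨i, hi⟩ => hi ▸ hkK i, hki j⟩, ?_, hcrd, ?_⟩
  · intro ψ
    constructor
    · intro hψ
      obtain ⟨j, hj⟩ := wt_of_tangentWeight hX y.fix G hn hψ
      have hj0 : wt j ≠ 0 := by
        rintro h0
        rw [← hj, h0] at hψ
        exact hiso hψ
      obtain ⟨i, hi⟩ := hki j hj0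
      exact ⟨i, by rw [hi, hj]⟩
    · rintro ⟨i, rfl⟩
      exact tangentWeight_of_wt hX y.fix G hn (hkK i)
  set T := (Ideal.span (Set.range u) ⊔ Ideal.span {f - 1}) ⊔ mx y.q • mx y.q with hT
  have uniq : ∀ k l, ∀ c c' : ℂ, (c ≠ 0 ∨ c' ≠ 0) → (∀ h, c * v k h + c' * v l h = 0) →
      k = l := by
    intro k l c c' hc h
    by_contra hkl
    have h1 := h (U k)
    have h2 := h (U l)
    rw [hvu, hvu, if_pos rfl, if_neg (Ne.symm hkl), mul_one, mul_zero, add_zero] at h1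
    rw [hvu, hvu, if_pos rfl, if_neg hkl, mul_one, mul_zero, zero_add] at h2
    rcases hc with hc | hc
    · exact hc h1
    · exact hc h2
  -- one generator
  have step : ∀ (k : Fin N) (x : R), x ∈ T → y.q x = 0 → v k x ≠ 0 → (∀ l, l ≠ k → v l x = 0) →
      U k ∈ T := by
    intro k x hxT hx hk hl
    obtain ⟨c, hc⟩ := H899.exists_coef G hx
    have hcl : ∀ l, c l = v l x := by
      intro l
      have h1 := H899.tan_sq (hvT l) hc
      rw [map_sub, map_sum, sub_eq_zero] at h1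
      rw [h1]
      have h2 : ∀ i, v l (c i • U i) = if l = i then c i else 0 := by
        intro i
        rw [map_smul, hvu, smul_eq_mul, mul_ite, mul_one, mul_zero]
      simp_rw [h2]
      rw [Finset.sum_ite_eq Finset.univ l, if_pos (Finset.mem_univ l)]
    have h3 : ∑ i, c i • U i = c k • U k := by
      refine Finset.sum_eq_single k (fun l _ hlk => ?_) fun h => absurd (Finset.mem_univ k) h
      rw [hcl, hl l hlk, zero_smul]
    rw [h3] at hc
    have hck : c k ≠ 0 := by rw [hcl]; exact hk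
    have h4 : U k = algebraMap ℂ R (c k)⁻¹ * (x - (x - c k • U k)) := by
      rw [sub_sub_cancel, ← Algebra.smul_def, smul_smul, inv_mul_cancel₀ hck, one_smul]
    rw [h4]
    exact Ideal.mul_mem_left _ _ (Ideal.sub_mem _ hxT (Ideal.mem_sup_right hc))
  have hU : ∀ k, U k ∈ T := by
    intro j
    by_cases hj : wt j = 0
    · -- the Euler direction
      have heul : ∀ l, wt l = 0 → ∃ c : ℂ, ∀ (d : ℕ) (m : Fin r → ℤ), ∀ h ∈ 𝒜 (d, m),
          v l h = c * d * y.q h := by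
        intro l hl
        by_contra hcon
        push Not at hcon
        exact hiso ⟨v l, hvT l, hl ▸ hw l, hcon⟩
      have hnz : ∀ l c, (∀ (d : ℕ) (m : Fin r → ℤ), ∀ h ∈ 𝒜 (d, m), v l h = c * d * y.q h) →
          c ≠ 0 := by
        rintro l c hc rfl
        have h1 : v l (U l) = 0 := by
          refine hom_ind' 𝒜 (P := fun x => v l x = 0) (map_zero _) (fun a b ha hb => by
            rw [map_add, ha, hb, add_zero]) ?_ (U l)
          rintro ⟨d, m⟩ x hx
          rw [hc d m x hx]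
          ring
        rw [hvu, if_pos rfl] at h1
        exact one_ne_zero h1
      obtain ⟨c, hc⟩ := heul j hj
      refine step j (f - 1) (Ideal.mem_sup_left (Ideal.mem_sup_right (Ideal.subset_span rfl)))
        (by rw [map_sub, hf1, map_one, sub_self]) ?_ ?_
      · rw [map_sub, Tan.one (hvT j), hc _ _ f hf, hf1]
        simpa using hnz j c hc
      · intro l hlk
        rw [map_sub, Tan.one (hvT l), sub_zero]
        by_contra hne
        have h1 := hw l 1 y.ν f hf hne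
        have hl : wt l = 0 := by
          rw [one_smul] at h1
          exact left_eq_add.1 h1
        obtain ⟨c', hc'⟩ := heul l hl
        refine hlk (uniq l j c (-c') (Or.inl (hnz j c hc)) fun h => ?_)
        refine hom_ind' 𝒜 (P := fun x => c * v l x + -c' * v j x = 0) (by simp)
          (fun a b ha hb => by
            rw [map_add, map_add]
            linear_combination ha + hb) ?_ h
        rintro ⟨d, m⟩ x hx
        rw [hc d m x hx, hc' d m x hx]
        ring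
    · obtain ⟨i, hi⟩ := hki j hj
      refine step j (u i) (Ideal.mem_sup_left (Ideal.mem_sup_left (Ideal.subset_span ⟨i, rfl⟩)))
        (hqu i) ?_ ?_
      · rw [hvu' i _ (hvT _), hi, hvu, if_pos rfl]
        exact one_ne_zero
      · intro l hlk
        rw [hvu' i _ (hvT _), hi, hvu, if_neg hlk]
  intro x hx
  obtain ⟨c, hc⟩ := H899.exists_coef G (mem_mx.1 hx)
  have h1 : x = (x - ∑ i, c i • U i) + ∑ i, c i • U i := by ring
  rw [h1]
  refine Submodule.add_mem _ (Ideal.mem_sup_right hc) (Submodule.sum_mem _ fun i _ => ?_)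
  rw [Algebra.smul_def]
  exact Ideal.mul_mem_left _ _ (hU i)

/-- A05. Coordinates: homogeneous regular functions vanishing at `y` are combinations of a system
of coordinates (with multiplicities). -/
theorem coords (H : Hyp 𝒜) (y : FP 𝒜) : ∃ (n : ℕ) (χ : Fin n → Fin r → ℤ)
    (du : Fin n → ℕ) (u : Fin n → R), (∀ ψ, y.Pi ψ ↔ ∃ i, χ i = ψ) ∧
    (∀ i, Crd y (χ i) (du i) (u i)) ∧
      ∀ (d : ℤ) (m : Fin r → ℤ) (x : FractionRing R), HK 𝒜 d m x → Val y.q x 0 →
        ∃ x' : Fin n → FractionRing R, (∀ i, Rg y.q (x' i) ∧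
          HK 𝒜 (d - du i) (m - (du i • y.ν + χ i)) (x' i)) ∧ x = ∑ i, iK (u i) * x' i := by
  classical
  have := noeth H.hX
  obtain ⟨f, N, U, wt, n, kk, du, u, hf, hf1, -, -, -, -, hpi, hu, hmx⟩ :=
    hcoords H.hX y (H.iso _ _ y.nv y.fix)
  refine ⟨n, fun i => wt (kk i), du, u, hpi, hu, ?_⟩
  intro d m x hx hval
  obtain ⟨k, k', s, a, hs, ha, hk', hs1, e⟩ := hx.exists_den H.hX y.nv y.fix hval.rg
  have hqa : y.q a = 0 := by
    have h1 := (Val.iK (q := y.q) s).mul hval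
    rw [e, mul_zero] at h1
    exact (Val.iK a).unique h1
  obtain ⟨k2, s2, hs2, hs2q, hspan⟩ := H899.exists_r' y.fix hf hf1 (fun i => (hu i).1)
    (fun i => (hu i).2.1) hmx
  obtain ⟨b, hb, hsum⟩ := H899.span_hom (fun i => (hu i).1) (hspan _ a ha hqa)
    (SetLike.mul_mem_graded hs2 ha)
  have hq : y.q (s2 * s) ≠ 0 := by
    rw [map_mul, hs1, mul_one]
    exact hs2q
  have hne : iK (s2 * s) ≠ 0 := iK_ne_zero (ne_zero_of_q hq)
  refine ⟨fun j => iK (b j) / iK (s2 * s), fun j => ⟨⟨b j, s2 * s, hq, mul_div_cancel₀ _ hne⟩, ?_⟩,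
    ?_⟩
  · rcases hb j with ⟨⟨kd, km⟩, hk, hbj⟩ | hbj
    · have h1 := congrArg Prod.fst hk
      have h2 := congrArg Prod.snd hk
      simp only [Prod.fst_add, Prod.snd_add] at h1 h2
      have hg : s2 * s ∈ 𝒜 (k2 + k, (k2 + k) • y.ν) := by
        have := SetLike.mul_mem_graded hs2 hs
        rwa [Prod.mk_add_mk, ← add_smul] at this
      refine ⟨kd, k2 + k, km, (k2 + k) • y.ν, b j, hbj, s2 * s, hg, ne_zero_of_q hq,
        mul_div_cancel₀ _ hne, ?_, ?_⟩
      · push_cast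
        omega
      · have h3 : km = k2 • y.ν + (m + k • y.ν) - (du j • y.ν + wt (kk j)) := by
          rw [← h2]
          abel
        rw [h3, add_smul]
        abel
    · beta_reduce
      rw [hbj, iK_zero, zero_div]
      exact A05.hk_zero hf hf1 _ _
  · have h1 : iK (s2 * s) * x = ∑ j, iK (u j) * iK (b j) := by
      rw [iK_mul, mul_assoc, e, ← iK_mul, hsum, iK_sum]
      exact Finset.sum_congr rfl fun j _ => iK_mul _ _
    apply mul_left_cancel₀ hne
    rw [h1, Finset.mul_sum]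
    refine Finset.sum_congr rfl fun j _ => ?_
    field_simp

end Vale.Agent.P280.H63X
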