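import Vale.Agent.P280.H490.Lift
import Vale.Agent.P280.H63X.Defs
open DirectSum Vale.Agent.P280.T Vale.Agent.P280.H127

namespace Vale.Agent.P280.H63X

open Vale.Agent.P280.N Vale.Agent.P280.H490

open Vale.Agent.P280.N

variable {r : ℕ} {R : Type} [CommRing R] [IsDomain R] [Algebra ℂ R]
  {𝒜 : ℕ × (Fin r → ℤ) → Submodule ℂ R} [GradedAlgebra 𝒜]

/-- Nefness along the curve. -/
theorem exists_der (H : Hyp 𝒜) {y y' : FP 𝒜} {a : Fin r → ℤ} {n : ℕ}
    {φ : R →ₐ[ℂ] Polynomial ℂ} (hφ : Curve y y' a n φ) {t : R →ₗ[ℂ] ℂ}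
    (ht : IsTangent y'.q t) :
    ∃ δ : R →ₗ[ℂ] Polynomial ℂ, (∀ x z, δ (x * z) = φ x * δ z + φ z * δ x) ∧
      (∀ d m, ∀ h ∈ 𝒜 (d, m), ∀ i, d * n < i → (δ h).coeff i = 0) ∧
      ∀ d m, ∀ h ∈ 𝒜 (d, m), (δ h).coeff (d * n) = t h := by
  obtain ⟨ψ, hψ⟩ := exists_hat hφ
  have hhom : ∀ (d : ℕ) (m : Fin r → ℤ), ∀ h ∈ 𝒜 (d, m), (ψ h).IsHomogeneous (d * n) := by
    intro d m h hh
    obtain ⟨i, hi, -, c, hc⟩ := form hφ hh
    rw [hψ d m h hh, hc, hg_mono hi]
    apply MvPolynomial.isHomogeneous_monomial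
    rw [Finsupp.degree_eq_sum]
    simp only [Fin.sum_univ_two, H644.ex_zero, H644.ex_one]
    omega
  have hev : ∀ (s : Fin 2 → ℂ) (d : ℕ) (m : Fin r → ℤ), ∀ h ∈ 𝒜 (d, m), ∀ (i : ℕ) (c : ℂ),
      i ≤ d * n → φ h = Polynomial.C c * Polynomial.X ^ i →
      MvPolynomial.aeval s (ψ h) = c * (s 0 ^ (d * n - i) * s 1 ^ i) := by
    intro s d m h hh i c hi hc
    rw [hψ d m h hh, hc, hg_mono hi, aeval_ex2]
  have hbp : ∀ s : Fin 2 → ℂ, s ≠ 0 → ¬ IsVertex 𝒜 ((MvPolynomial.aeval s).comp ψ) := by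
    intro s hs hver
    by_cases hs0 : s 0 = 0
    · have hs1 : s 1 ≠ 0 := by
        intro hs1
        apply hs
        funext i
        fin_cases i
        · exact hs0
        · exact hs1
      apply y'.nv
      intro d m hd h hh
      have h1 := hver d m hd h hh
      change MvPolynomial.aeval s (ψ h) = 0 at h1
      obtain ⟨i, hi, -, c, hc⟩ := form hφ hh
      rw [hev s d m h hh i c hi hc] at h1
      rw [← hφ.ev' d m h hh, hc, Polynomial.coeff_C_mul_X_pow]
      by_cases hdi : d * n = i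
      · rw [if_pos hdi]
        rw [hdi, Nat.sub_self, pow_zero, one_mul] at h1
        exact (mul_eq_zero.1 h1).resolve_right (pow_ne_zero _ hs1)
      · rw [if_neg hdi]
    · apply y.nv
      intro d m hd h hh
      have h1 := hver d m hd h hh
      change MvPolynomial.aeval s (ψ h) = 0 at h1
      obtain ⟨i, hi, -, c, hc⟩ := form hφ hh
      rw [hev s d m h hh i c hi hc] at h1
      rw [← hφ.ev, hc]
      rcases Nat.eq_zero_or_pos i with h0 | h0
      · subst h0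
        rw [pow_zero, mul_one, Nat.sub_zero] at h1
        have h2 := (mul_eq_zero.1 h1).resolve_right (pow_ne_zero _ hs0)
        rw [h2, Polynomial.C_0, zero_mul, Polynomial.eval_zero]
      · simp [Nat.pos_iff_ne_zero.1 h0]
  have hψ' : (MvPolynomial.aeval (![0, 1] : Fin 2 → ℂ)).comp ψ = y'.q := by
    apply algHom_ext_graded 𝒜
    rintro ⟨d, m⟩ h hh
    change MvPolynomial.aeval ![0, 1] (ψ h) = y'.q h
    obtain ⟨i, hi, -, c, hc⟩ := form hφ hh
    rw [hev _ d m h hh i c hi hc, ← hφ.ev' d m h hh, hc, Polynomial.coeff_C_mul_X_pow]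
    by_cases hdi : d * n = i
    · rw [if_pos hdi, hdi]
      simp
    · rw [if_neg hdi]
      have : d * n - i ≠ 0 := by omega
      simp [this]
  have hψφ : (MvPolynomial.aeval ![(1 : Polynomial ℂ), Polynomial.X]).comp ψ = φ := by
    apply algHom_ext_graded 𝒜
    rintro ⟨d, m⟩ h hh
    change MvPolynomial.aeval ![(1 : Polynomial ℂ), Polynomial.X] (ψ h) = φ h
    obtain ⟨i, hi, -, c, hc⟩ := form hφ hh
    rw [hψ d m h hh, hc, hg_mono hi, aeval_ex]
  obtain ⟨δ, hδ, hδh, hδv⟩ := H.hN n ψ hhom hbp ![0, 1] (by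
    intro h
    have := congrFun h 1
    simp at this) t (by rw [hψ']; exact ht)
  have hψx : ∀ x, MvPolynomial.aeval ![(1 : Polynomial ℂ), Polynomial.X] (ψ x) = φ x := by
    intro x
    rw [← hψφ]
    rfl
  refine ⟨(MvPolynomial.aeval ![(1 : Polynomial ℂ), Polynomial.X]).toLinearMap.comp δ, ?_, ?_, ?_⟩
  · intro x z
    simp only [LinearMap.comp_apply, AlgHom.toLinearMap_apply]
    rw [hδ, map_add, map_mul, map_mul, hψx, hψx]
  · intro d m h hh i hi
    exact (aeval_deg (hδh d m h hh)).1 i hi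
  · intro d m h hh
    rw [← hδv h]
    exact (aeval_deg (hδh d m h hh)).2

end Vale.Agent.P280.H63X
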