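import Vale.Agent.P280.H490.Rev
import Vale.Agent.P280.H63X.CurveU
import Vale.Agent.P280.H63X.Defs
open DirectSum Vale.Agent.P280.T Vale.Agent.P280.H127

namespace Vale.Agent.P280.H63X

open Vale.Agent.P280.N Vale.Agent.P280.H490

open Vale.Agent.P280.N

variable {r : ℕ} {R : Type} [CommRing R] [IsDomain R] [Algebra ℂ R]
  {𝒜 : ℕ × (Fin r → ℤ) → Submodule ℂ R} [GradedAlgebra 𝒜]

/-- The reversed curve. -/
theorem exists_rev (H : Hyp 𝒜) {y y' : FP 𝒜} {a : Fin r → ℤ} {n : ℕ}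
    {φ : R →ₐ[ℂ] Polynomial ℂ} (hφ : Curve y y' a n φ) :
    ∃ φ' : R →ₐ[ℂ] Polynomial ℂ, Curve y' y (-a) n φ' ∧
      ∀ d m, ∀ h ∈ 𝒜 (d, m), ∀ i : ℕ, i ≤ d * n → ∀ c : ℂ,
        φ h = Polynomial.C c * Polynomial.X ^ i →
        φ' h = Polynomial.C c * Polynomial.X ^ (d * n - i) := by
  have ha := ne_zero_of_curve H hφ
  obtain ⟨ψ, hψ⟩ := exists_hat hφ
  have key : ∀ d m, ∀ h ∈ 𝒜 (d, m), ∀ i : ℕ, i ≤ d * n → ∀ c : ℂ,
      φ h = Polynomial.C c * Polynomial.X ^ i →
      ((MvPolynomial.aeval ![Polynomial.X, (1 : Polynomial ℂ)]).comp ψ) h =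
        Polynomial.C c * Polynomial.X ^ (d * n - i) := by
    intro d m h hh i hi c hc
    rw [AlgHom.comp_apply, hψ d m h hh, hc, hg_mono hi, aeval_ex']
  generalize (MvPolynomial.aeval ![Polynomial.X, (1 : Polynomial ℂ)]).comp ψ = φ' at key
  refine ⟨φ', ?_, key⟩
  have hdn : ∀ (d i : ℕ), i ≤ d * n →
      d • y.ν + i • a = d • y'.ν + (d * n - i) • (-a) := by
    intro d i hi
    have h1 : (d * n - i) • a + i • a = d • n • a := by
      rw [← add_smul, Nat.sub_add_cancel hi, mul_smul]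
    rw [hφ.nu, smul_add, ← h1, smul_neg]
    abel
  refine ⟨hφ.n1, hφ.ya', by rw [neg_neg]; exact hφ.ya, ?_, ?_, ?_, ?_, ?_, ?_⟩
  · rw [hφ.nu, smul_neg]
    abel
  · intro d m h hh hne
    obtain ⟨i, hi, hm, c, hc⟩ := form hφ hh
    have h0 : φ h ≠ 0 := by
      intro h0
      have h1 := key d m h hh 0 (Nat.zero_le _) 0 (by rw [h0, Polynomial.C_0, zero_mul])
      rw [Polynomial.C_0, zero_mul] at h1
      exact hne h1
    refine ⟨d * n - i, Nat.sub_le _ _, ?_, c, key d m h hh i hi c hc⟩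
    rw [hm h0, hdn d i hi]
  · have h1 : (Polynomial.aeval (0 : ℂ)).comp φ' = y'.q := by
      apply algHom_ext_graded 𝒜
      rintro ⟨d, m⟩ h hh
      change Polynomial.aeval (0 : ℂ) (φ' h) = y'.q h
      obtain ⟨i, hi, -, c, hc⟩ := form hφ hh
      rw [key d m h hh i hi c hc, ← hφ.ev' d m h hh, hc, Polynomial.coeff_C_mul_X_pow]
      by_cases hdi : d * n = i
      · rw [if_pos hdi, hdi]
        simp
      · rw [if_neg hdi]
        have : d * n - i ≠ 0 := by omega
        simp [this]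
    intro h
    have h2 := AlgHom.congr_fun h1 h
    rwa [AlgHom.comp_apply, Polynomial.coe_aeval_eq_eval] at h2
  · intro d m h hh
    obtain ⟨i, hi, -, c, hc⟩ := form hφ hh
    rw [key d m h hh i hi c hc, ← hφ.ev, hc, Polynomial.coeff_C_mul_X_pow]
    rcases Nat.eq_zero_or_pos i with h0 | h0
    · subst h0
      simp
    · rw [if_neg (by omega)]
      simp [Nat.pos_iff_ne_zero.1 h0]
  · obtain ⟨d, h, hh, hne⟩ := hφ.un'
    refine ⟨d, h, by rwa [← sub_eq_add_neg], ?_⟩
    obtain ⟨i, hi, hm, c, hc⟩ := form hφ hh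
    have h0 : φ h ≠ 0 := fun h0 => hne (by rw [h0, Polynomial.coeff_zero])
    rw [hc, Polynomial.coeff_C_mul_X_pow] at hne
    have h1 : d * n - 1 = i := by
      by_contra h1
      exact hne (if_neg h1)
    rw [if_pos h1] at hne
    have h2 : 1 ≤ d * n := by
      by_contra h2
      have h3 : d * n = 0 := by omega
      have h4 : d = 0 := by
        rcases mul_eq_zero.1 h3 with h | h
        · exact h
        · exact absurd hφ.n1 (by omega)
      have h5 : i = 0 := by omega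
      have h6 := hm h0
      rw [h4, h5] at h6
      apply ha
      simpa using h6
    rw [key d _ h hh i hi c hc, Polynomial.coeff_C_mul_X_pow, if_pos (by omega)]
    exact hne
  · obtain ⟨d, h, hh, hne⟩ := hφ.un
    refine ⟨d, h, by rwa [sub_neg_eq_add], ?_⟩
    obtain ⟨i, hi, -, c, hc⟩ := form hφ hh
    rw [hc, Polynomial.coeff_C_mul_X_pow] at hne
    have h1 : 1 = i := by
      by_contra h1
      exact hne (if_neg h1)
    rw [if_pos h1] at hne
    rw [key d _ h hh i hi c hc, Polynomial.coeff_C_mul_X_pow, if_pos (by omega)]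
    exact hne

end Vale.Agent.P280.H63X
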