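import Vale.Agent.P280.N.C01
import Vale.Agent.P280.H63X.A01
import Vale.Agent.P280.H63X.A06
import Vale.Agent.P280.H63X.Defs
open DirectSum Vale.Agent.P280.T Vale.Agent.P280.H127

namespace Vale.Agent.P280.H63X

open Vale.Agent.P280.N

variable {r : ℕ} {R : Type} [CommRing R] [IsDomain R] [Algebra ℂ R]
  {𝒜 : ℕ × (Fin r → ℤ) → Submodule ℂ R} [GradedAlgebra 𝒜]

omit [IsDomain R] in
/-- a generic refinement `(2 K + 1) l + g` and its source -/
theorem exists_refined_source (H : Hyp 𝒜) (l : (Fin r → ℤ) →+ ℤ) :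
    ∃ (K : ℤ) (l' : (Fin r → ℤ) →+ ℤ) (y : FP 𝒜), 0 ≤ K ∧
      (∀ ω, Wt 𝒜 ω → |l' ω - (2 * K + 1) * l ω| ≤ K) ∧ ∀ χ, y.Pi χ → 0 < l' χ := by
  have hX := H.hX
  obtain ⟨g, hg⟩ := H587.exists_generic (finite_weights hX)
  obtain ⟨K, hK0, hK⟩ := H587.exists_bound (S := H587.wts 𝒜) (finite_weights hX) g
  let l' : (Fin r → ℤ) →+ ℤ := (2 * K + 1) • l + g
  have hl' : ∀ m, l' m = (2 * K + 1) * l m + g m := fun m => by
    change (2 * K + 1) • l m + g m = _
    rw [smul_eq_mul]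
  have hinj : Set.InjOn l' (H587.wts 𝒜) := by
    intro a ha b hb hab
    apply hg ha hb
    have h1 : (2 * K + 1) * l (a - b) + g (a - b) = 0 := by
      have : l' (a - b) = 0 := by rw [map_sub, hab, sub_self]
      rwa [hl'] at this
    have h2 := abs_le.1 (hK a ha b hb)
    have h3 : l (a - b) = 0 := by
      by_contra hne
      rcases lt_or_gt_of_ne hne with hlt | hgt
      · nlinarith
      · nlinarith
    rw [h3, mul_zero, zero_add, map_sub] at h1
    exact sub_eq_zero.1 h1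
  obtain ⟨p, μ, hp0, hp, hpos, -⟩ := H587.exists_source hX H.iso l' hinj
  refine ⟨K, l', ⟨p, μ, hp0, hp⟩, hK0, ?_, hpos⟩
  rintro ω ⟨y, hω⟩
  obtain ⟨h1, h2⟩ := H587.tangentWeight_mem hX y.nv y.fix hω
  have h3 := hK _ h2 _ h1
  rw [add_sub_cancel_left] at h3
  rw [hl', add_sub_cancel_left]
  exact h3

omit [IsDomain R] in
/-- each `l` has a fixed point in its lowest component -/
theorem exists_pos_any (H : Hyp 𝒜) (l : (Fin r → ℤ) →+ ℤ) : ∃ y : FP 𝒜, Pos l y := by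
  obtain ⟨K, l', y, hK0, hK, hpos⟩ := exists_refined_source H l
  refine ⟨y, fun χ hχ => ?_⟩
  have h1 := hpos χ hχ
  have h2 := (abs_le.1 (hK χ ⟨y, hχ⟩)).2
  by_contra hlt
  push Not at hlt
  nlinarith

/-- C01 (H1). -/
theorem hull_field (H : Hyp 𝒜) (l : (Fin r → ℤ) →+ ℤ) {a : ℤ} (ha : 0 ≤ a)
    (hmax : ∀ ω, Wt 𝒜 ω → l ω ≤ a) {D : VF R} (hD : Glob D) {ω : Fin r → ℤ} (hDv : HV 𝒜 ω D)
    (hne : D ≠ 0) : l ω ≤ a := by
  by_contra hlt
  push Not at hlt
  obtain ⟨y, hy⟩ := exists_pos_any H l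
  obtain ⟨D', rfl, hD'⟩ := hD.exists_hder hDv
  apply hne
  have := noeth H.hX
  have hF := fix_of_isFixed y.fix
  obtain ⟨n, u, wt, G, hn⟩ := exists_params_T H.hX y.nv hF
  have hwt : ∀ i, 0 ≤ l (wt i) ∧ l (wt i) ≤ a := by
    intro i
    by_cases h0 : wt i = 0
    · rw [h0, map_zero]
      exact ⟨le_rfl, ha⟩
    · have h1 := tangentWeight_of_wt H.hX y.fix G hn h0
      exact ⟨hy _ h1, hmax _ ⟨y, h1⟩⟩
  have hkill : ∀ i, D' (u i) = 0 := by
    intro i
    have h1 : coarse 𝒜 (rl (AddMonoidHom.id (Fin r → ℤ)) y.ν) (wt i - ω) = ⊥ := by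
      refine source hF G (C := {w | l w < 0}) (by simp) ?_ ?_
      · intro w hw j
        have h2 := (hwt j).1
        simp only [Set.mem_ofPred_eq, map_sub] at hw ⊢
        linarith
      · have h2 := (hwt i).2
        simp only [Set.mem_ofPred_eq, map_sub]
        linarith
    have h2 : D' (u i) ∈ coarse 𝒜 (rl (AddMonoidHom.id (Fin r → ℤ)) y.ν) (wt i - ω) := by
      refine coarse_induction (P := fun x => D' x ∈ coarse 𝒜
        (rl (AddMonoidHom.id (Fin r → ℤ)) y.ν) (wt i - ω)) ?_ ?_ ?_ (G.hom i)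
      · rw [map_zero]
        exact Submodule.zero_mem _
      · intro x z hx hz
        rw [map_add]
        exact Submodule.add_mem _ hx hz
      · rintro ⟨d, m⟩ hdm h hh
        refine mem_coarse (hD' d m h hh) ?_
        rw [← hdm, rl_apply, rl_apply, AddMonoidHom.id_apply, AddMonoidHom.id_apply]
        abel
    rw [h1] at h2
    exact (Submodule.mem_bot ℂ).1 h2
  have h0 := H899.der_eq_zero G D' hkill
  refine vf_ext fun x => ?_
  rw [toVF_iK, h0 x, iK_zero, Derivation.zero_apply]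

/-- C02. The weights are symmetric: `-l` has the same bound. -/
theorem neg_max (H : Hyp 𝒜) (l : (Fin r → ℤ) →+ ℤ) {a : ℤ} (ha : 0 < a)
    (hmax : ∀ ω, Wt 𝒜 ω → l ω ≤ a) (ω : Fin r → ℤ) (hω : Wt 𝒜 ω) : -a ≤ l ω := by
  obtain ⟨K, l', y, hK0, hK, hpos⟩ := exists_refined_source H l
  have hs : IsSource 𝒜 l' y.q y.ν ((2 * K + 1) * a + K) := by
    refine ⟨y.nv, y.fix, fun χ hχ => ⟨hpos χ hχ, ?_⟩⟩
    have h1 := (abs_le.1 (hK χ ⟨y, hχ⟩)).2
    have h2 := hmax χ ⟨y, hχ⟩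
    nlinarith
  have hpos' : 0 < (2 * K + 1) * a + K := by nlinarith
  have hω' := hω
  obtain ⟨x, hx⟩ := hω
  have h3 := (weight_bounds H939.theoremI_all H.hX H.hN hs hpos' x.nv x.fix hx).1
  have h4 := (abs_le.1 (hK ω hω')).2
  by_contra hlt
  push Not at hlt
  nlinarith

end Vale.Agent.P280.H63X
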