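import Vale.Agent.P280.H63X.Curve
import Vale.Agent.P280.H63X.Along

/-! P280, helper63, route X: no opposite weights at a point. -/

open DirectSum Vale.Agent.P280.T Vale.Agent.P280.H127

namespace Vale.Agent.P280.H63X

open Vale.Agent.P280.N Vale.Agent.P280.H490

variable {r : ℕ} {R : Type} [CommRing R] [IsDomain R] [Algebra ℂ R]
  {𝒜 : ℕ × (Fin r → ℤ) → Submodule ℂ R}

/-- On the ray of `χ` there is at most one tangent weight at each point. -/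
def Sep (𝒜 : ℕ × (Fin r → ℤ) → Submodule ℂ R) (χ : Fin r → ℤ) : Prop :=
  ∀ (z : FP 𝒜) (j j' : ℕ), 1 ≤ j → 1 ≤ j' → z.Pi (j • χ) → z.Pi (j' • χ) → j = j'

theorem sep_of_vx {χ : Fin r → ℤ} (h : Vx 𝒜 χ) : Sep 𝒜 χ := by
  obtain ⟨-, l, hl, hm⟩ := h
  have key : ∀ (z : FP 𝒜) (j : ℕ), 1 ≤ j → z.Pi (j • χ) → j = 1 := by
    intro z j hj hz
    by_contra hne
    have hχ : j • χ ≠ χ := by
      intro h1
      have h2 := congrArg l h1
      rw [map_nsmul, nsmul_eq_mul] at h2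
      have h3 : (2 : ℤ) ≤ j := by exact_mod_cast (by omega : 2 ≤ j)
      nlinarith
    have h2 := hm _ ⟨z, hz⟩ hχ
    rw [map_nsmul, nsmul_eq_mul] at h2
    have h3 : (2 : ℤ) ≤ j := by exact_mod_cast (by omega : 2 ≤ j)
    nlinarith
  intro z j j' hj hj' h1 h2
  rw [key z j hj h1, key z j' hj' h2]

variable [GradedAlgebra 𝒜]

/-- (P1) -/
theorem no_opp (H : Hyp 𝒜) {χ : Fin r → ℤ} (hs : Sep 𝒜 χ)
    (hm : ∀ z : FP 𝒜, z.Pi χ → ∀ v v' : R →ₗ[ℂ] ℂ, IsTangent z.q v → HasWeight 𝒜 z.ν χ v →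
      IsTangent z.q v' → HasWeight 𝒜 z.ν χ v' →
      ∃ c c' : ℂ, (c ≠ 0 ∨ c' ≠ 0) ∧ ∀ h, c * v h + c' * v' h = 0)
    {q : FP 𝒜} (h1 : q.Pi χ) (h2 : q.Pi (-χ)) : False := by
  obtain ⟨z, n, φ, hφ⟩ := exists_curve_main H q h2 (fun y' j j' hj hj' h3 h4 =>
    hs y' j j' hj hj' (by rwa [smul_neg, neg_neg] at h3) (by rwa [smul_neg, neg_neg] at h4))
  obtain ⟨φ', hφ', -⟩ := exists_rev H hφ
  rw [neg_neg] at hφ'
  obtain ⟨t, ht, htw, htne⟩ := h1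
  obtain ⟨δ, hδ, hδ1, hδ2⟩ := exists_lift H hφ' ht htw
  obtain ⟨c, hc⟩ := der_dir H hφ' hδ (fun d m h hh hne => by
      obtain ⟨i, -, hm, hc⟩ := hδ1 d m h hh hne
      exact ⟨i, hm, hc⟩) (by
    intro k hk hpi
    have h3 : z.Pi ((k + 1) • χ) := by
      have h4 : (k + 1) • χ = χ + (k : ℤ) • χ := by
        rw [succ_nsmul, natCast_zsmul, add_comm]
      rw [h4]
      exact hpi
    have h5 : z.Pi (1 • χ) := by
      rw [one_smul]
      exact hφ'.ya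
    have := hs z (k + 1) 1 (by omega) le_rfl h3 h5
    omega) (fun v v' => hm z hφ'.ya v v')
  obtain ⟨d, m, h, hh, h3⟩ := htne 0
  rw [zero_mul, zero_mul] at h3
  apply h3
  rw [← hδ2 d m h hh, hc, Polynomial.coeff_C_mul, Polynomial.coeff_derivative]
  obtain ⟨i, hi, -, e, he⟩ := form hφ' hh
  rw [he, Polynomial.coeff_C_mul_X_pow, if_neg (by omega), zero_mul, mul_zero]

end Vale.Agent.P280.H63X
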