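import Vale.Agent.P280.N.C05
import Vale.Agent.P280.H63X.Defs
open DirectSum Vale.Agent.P280.T Vale.Agent.P280.H127

namespace Vale.Agent.P280.H63X

open Vale.Agent.P280.N

section ladder

variable {V : Type*} [AddCommGroup V] [Module ℂ V] {e f h : V →ₗ[ℂ] V} {N : ℂ}

end ladder

variable {r : ℕ} {R : Type} [CommRing R] [IsDomain R] [Algebra ℂ R]
  {𝒜 : ℕ × (Fin r → ℤ) → Submodule ℂ R} [GradedAlgebra 𝒜]

theorem root_pos_aux (H : Hyp 𝒜) {N : ℤ} (hN : 0 < N) {χ : Fin r → ℤ} {β : (Fin r → ℤ) →+ ℤ}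
    {E F : VF R} (hr : Root0 𝒜 N χ β E F) {D : VF R} (hD : Glob D) {ω : Fin r → ℤ}
    (hDv : HV 𝒜 ω D) (hne : D ≠ 0) :
    (⁅E, D⁆ = 0 → 0 ≤ β ω) ∧
      (∀ k : ℕ, β ω = k * N → (fun X : VF R => ⁅F, X⁆)^[k] D ≠ 0) := by
  have hχ := hr.ne hN
  have hN0 : (N : ℂ) ≠ 0 := by exact_mod_cast hN.ne'
  have h1 : ∀ X, adl E (adl F X) - adl F (adl E X) = adl ⁅E, F⁆ X := by
    intro X
    rw [adl_apply, adl_apply, adl_apply, adl_apply, adl_apply, vlie_lie]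
  have h2 : ∀ X, adl ⁅E, F⁆ (adl E X) - adl E (adl ⁅E, F⁆ X) = (2 * (N : ℂ)) • adl E X := by
    intro X
    rw [adl_apply, adl_apply, adl_apply, adl_apply, ← vlie_lie, hr.rel.1, vsmul_lie]
  have h3 : ∀ X, adl ⁅E, F⁆ (adl F X) - adl F (adl ⁅E, F⁆ X) = (-(2 * (N : ℂ))) • adl F X := by
    intro X
    rw [adl_apply, adl_apply, adl_apply, adl_apply, ← vlie_lie, hr.rel.2, vsmul_lie]
  have hx : adl ⁅E, F⁆ D = ((β ω : ℤ) : ℂ) • D := hr.lie_lie hD hDv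
  have hnE : ∃ k : ℕ, (adl E)^[k] D = 0 := iter_nil H.hX hχ hr.globE hr.hvE hD hDv
  have hnF : ∃ k : ℕ, (adl F)^[k] D = 0 :=
    iter_nil H.hX (neg_ne_zero.2 hχ) hr.globF hr.hvF hD hDv
  constructor
  · intro h0
    obtain ⟨i, hi⟩ := ladder_int h1 h2 h3 hx (j := 0) hne h0 hnF
    rw [Nat.cast_zero, sub_zero] at hi
    have h4 : β ω = N * i := by exact_mod_cast hi
    rw [h4]
    positivity
  · intro k hk h0
    obtain ⟨j, hj, hj1⟩ := exists_top (e := adl E) hne hnE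
    obtain ⟨h4, -⟩ := ladder_ne h1 h2 h3 hx hj hj1 k (by
      intro i' hi' h5
      rw [hk] at h5
      push_cast at h5
      have h6 : (N : ℂ) * ((k : ℂ) + j - i') = 0 := by linear_combination h5
      rcases mul_eq_zero.1 h6 with h7 | h7
      · exact hN0 h7
      · have h8 : (k : ℂ) + j = i' := by linear_combination h7
        have h9 : k + j = i' := by exact_mod_cast h8
        omega)
    apply h4
    rw [adl_iterate F k D, h0]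
    exact iterate_zero' _ _

/-- C05. sl2 representation theory for the adjoint action. -/
theorem root_pos (H : Hyp 𝒜) {N : ℤ} (hN : 0 < N) {χ : Fin r → ℤ} {β : (Fin r → ℤ) →+ ℤ}
    {E F : VF R} (hr : Root0 𝒜 N χ β E F) {D : VF R} (hD : Glob D) {ω : Fin r → ℤ}
    (hDv : HV 𝒜 ω D) (hne : D ≠ 0) :
    (⁅E, D⁆ = 0 → 0 ≤ β ω) ∧ (⁅F, D⁆ = 0 → β ω ≤ 0) ∧
      (⁅F, ⁅F, D⁆⁆ = 0 → β ω ≠ 2 * N) ∧
      (∀ k : ℕ, β ω = k * N → (fun X : VF R => ⁅F, X⁆)^[k] D ≠ 0) ∧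
      ∀ k : ℕ, β ω = -(k * N) → (fun X : VF R => ⁅E, X⁆)^[k] D ≠ 0 := by
  obtain ⟨h1, h2⟩ := root_pos_aux H hN hr hD hDv hne
  obtain ⟨h3, h4⟩ := root_pos_aux H hN hr.symm hD hDv hne
  refine ⟨h1, fun h => ?_, fun h h5 => ?_, h2, fun k hk => ?_⟩
  · have h5 := h3 h
    rw [AddMonoidHom.neg_apply] at h5
    omega
  · exact h2 2 (by rw [h5]; norm_num) h
  · exact h4 k (by rw [AddMonoidHom.neg_apply, hk, neg_neg])

theorem root_int_one (H : Hyp 𝒜) {N : ℤ} (hN : 0 < N) {χ : Fin r → ℤ} {β : (Fin r → ℤ) →+ ℤ}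
    {E F : VF R} (hr : Root0 𝒜 N χ β E F) {α : ℂ}
    (hα : ∀ d m, ∀ h ∈ 𝒜 (d, m), ⁅E, F⁆ (iK h) = -(((d : ℂ) * α + (β m : ℂ)) • iK h))
    {m : Fin r → ℤ} (hm : m ∈ H587.wts 𝒜) : ∃ a : ℤ, -(α + (β m : ℂ)) = (N : ℂ) * a := by
  obtain ⟨a, ha, ha0⟩ := hm
  have hχ := hr.ne hN
  let e : FractionRing R →ₗ[ℂ] FractionRing R := E
  let f : FractionRing R →ₗ[ℂ] FractionRing R := F
  let h : FractionRing R →ₗ[ℂ] FractionRing R := (⁅E, F⁆ : VF R)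
  have h1 : ∀ x, e (f x) - f (e x) = h x := fun x => (Derivation.commutator_apply x).symm
  have h2 : ∀ x, h (e x) - e (h x) = (2 * (N : ℂ)) • e x := by
    intro x
    have h3 : (⁅⁅E, F⁆, E⁆ : VF R) x = ((2 * (N : ℂ)) • E : VF R) x := by rw [hr.rel.1]
    rw [Derivation.commutator_apply, Derivation.smul_apply] at h3
    exact h3
  have h3 : ∀ x, h (f x) - f (h x) = (-(2 * (N : ℂ))) • f x := by
    intro x
    have h3 : (⁅⁅E, F⁆, F⁆ : VF R) x = ((-(2 * (N : ℂ))) • F : VF R) x := by rw [hr.rel.2]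
    rw [Derivation.commutator_apply, Derivation.smul_apply] at h3
    exact h3
  have hx : h (iK a) = (-(α + (β m : ℂ))) • iK a := by
    have h4 := hα 1 m a ha
    rw [Nat.cast_one, one_mul, ← neg_smul] at h4
    exact h4
  have hne : iK a ≠ 0 := iK_ne_zero ha0
  have hnE : ∃ k : ℕ, e^[k] (iK a) = 0 := app_nil H.hX hχ hr.globE hr.hvE ha
  have hnF : ∃ k : ℕ, f^[k] (iK a) = 0 := app_nil H.hX (neg_ne_zero.2 hχ) hr.globF hr.hvF ha
  obtain ⟨j, hj, hj1⟩ := exists_top (e := e) hne hnE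
  obtain ⟨i, hi⟩ := ladder_int h1 h2 h3 hx hj hj1 hnF
  exact ⟨(i : ℤ) - j, by rw [hi]; push_cast; ring⟩

/-- C06. Integrality. -/
theorem root_int (H : Hyp 𝒜) {N : ℤ} (hN : 0 < N) {χ : Fin r → ℤ} {β : (Fin r → ℤ) →+ ℤ}
    {E F : VF R} (hr : Root0 𝒜 N χ β E F) {ω : Fin r → ℤ} (hω : Wt 𝒜 ω) : N ∣ β ω := by
  obtain ⟨y, hy⟩ := hω
  obtain ⟨h1, h2⟩ := H587.tangentWeight_mem H.hX y.nv y.fix hy
  obtain ⟨α, hα⟩ := hr.br
  obtain ⟨a, ha⟩ := root_int_one H hN hr hα h1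
  obtain ⟨b, hb⟩ := root_int_one H hN hr hα h2
  refine ⟨a - b, ?_⟩
  have h3 : ((β ω : ℤ) : ℂ) = ((N * (a - b) : ℤ) : ℂ) := by
    rw [map_add] at hb
    push_cast at hb ⊢
    linear_combination ha - hb
  exact_mod_cast h3

end Vale.Agent.P280.H63X
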