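import Vale.Agent.P280.N.C07
import Vale.Agent.P280.H63X.C03
import Vale.Agent.P280.H63X.C04
import Vale.Agent.P280.H63X.C05
import Vale.Agent.P280.H63X.D01
import Vale.Agent.P280.H63X.Defs
open DirectSum Vale.Agent.P280.T Vale.Agent.P280.H127

namespace Vale.Agent.P280.H63X

open Vale.Agent.P280.N

variable {r : ℕ} {R : Type} [CommRing R] [IsDomain R] [Algebra ℂ R]
  {𝒜 : ℕ × (Fin r → ℤ) → Submodule ℂ R} [GradedAlgebra 𝒜]

namespace C07

omit [IsDomain R] in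
theorem wt_finite (H : Hyp 𝒜) : {χ : Fin r → ℤ | Wt 𝒜 χ}.Finite := by
  have hf : (H587.wts 𝒜).Finite := finite_weights H.hX
  refine ((hf.prod hf).image fun p => p.2 - p.1).subset ?_
  rintro χ ⟨y, hy⟩
  obtain ⟨h1, h2⟩ := H587.tangentWeight_mem H.hX y.nv y.fix hy
  exact ⟨(y.ν, y.ν + χ), ⟨h1, h2⟩, by simp⟩

omit [IsDomain R] in
theorem wt_bound (H : Hyp 𝒜) (g : (Fin r → ℤ) →+ ℤ) :
    ∃ C : ℤ, 0 ≤ C ∧ ∀ ω, Wt 𝒜 ω → |g ω| ≤ C := by
  obtain ⟨C, hC⟩ := ((wt_finite H).image fun ω => |g ω|).bddAbove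
  refine ⟨max C 0, le_max_right _ _, fun ω hω => le_max_of_le_left (hC ⟨ω, hω, rfl⟩)⟩

theorem ne_zero (H : Hyp 𝒜) {N : ℤ} (hN : 0 < N) {χ : Fin r → ℤ} (hχ : Wt 𝒜 χ)
    {β : (Fin r → ℤ) →+ ℤ} {E F : VF R} (hr : Root0 𝒜 N χ β E F) : E ≠ 0 ∧ F ≠ 0 := by
  have key : ⁅E, F⁆ ≠ 0 := by
    intro h0
    obtain ⟨α, hα⟩ := hr.br
    obtain ⟨y, hy⟩ := hχ
    obtain ⟨⟨h1, hh1, hn1⟩, ⟨h2, hh2, hn2⟩⟩ := H587.tangentWeight_mem H.hX y.nv y.fix hy
    have e : ∀ m, ∀ h ∈ 𝒜 (1, m), h ≠ 0 → α + (β m : ℂ) = 0 := by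
      intro m h hh hn
      have h3 := hα 1 m h hh
      rw [h0, Derivation.zero_apply, eq_comm, neg_eq_zero] at h3
      rcases smul_eq_zero.1 h3 with h4 | h4
      · simpa using h4
      · exact absurd (iK_eq_zero.1 h4) hn
    have e1 := e _ h1 hh1 hn1
    have e2 := e _ h2 hh2 hn2
    rw [map_add, hr.two] at e2
    have h5 : ((2 * N : ℤ) : ℂ) = 0 := by
      push_cast at e1 e2 ⊢
      linear_combination e2 - e1
    have h6 : (2 * N : ℤ) = 0 := by exact_mod_cast h5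
    omega
  constructor
  · rintro rfl
    exact key (zero_lie F)
  · rintro rfl
    exact key (lie_zero E)

end C07

open C07

/-- C07. Invariance of the hull and the bound. -/
theorem root_hull (H : Hyp 𝒜) {N : ℤ} (hN : 0 < N) {χ : Fin r → ℤ} (hχ : Vx 𝒜 χ)
    {β : (Fin r → ℤ) →+ ℤ} {E F : VF R} (hr : Root0 𝒜 N χ β E F) (l : (Fin r → ℤ) →+ ℤ) (a : ℤ)
    (hmax : ∀ ω, Wt 𝒜 ω → l ω ≤ a) {μ : Fin r → ℤ} (hμ : Wt 𝒜 μ) :
    N * l μ - β μ * l χ ≤ N * a := by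
  by_contra hcon
  push Not at hcon
  obtain ⟨hE0, hF0⟩ := ne_zero H hN hχ.1 hr
  have ha : 0 ≤ a := by
    by_contra h
    push Not at h
    have h1 := hull_field H l le_rfl (fun ω hω => (hmax ω hω).trans h.le) hr.globF hr.hvF hF0
    rw [map_neg] at h1
    have h2 := hmax χ hχ.1
    linarith
  obtain ⟨g, hg⟩ : ∃ g : (Fin r → ℤ) →+ ℤ, ∀ ω, g ω = N * l ω - β ω * l χ :=
    ⟨N • l - (l χ) • β, fun ω => by
      simp only [AddMonoidHom.sub_apply, AddMonoidHom.smul_apply, smul_eq_mul]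
      ring⟩
  obtain ⟨μ', hμ', hm⟩ := Set.exists_max_image _ g (wt_finite H) ⟨μ, hμ⟩
  have h1 : N * a < g μ' := by
    have := hm μ hμ
    rw [hg μ] at this
    linarith
  have h2 : 0 < g μ' := lt_of_le_of_lt (by positivity) h1
  obtain ⟨ψ, hψ, hψa, -⟩ := max_at_vertex H g h2 hm ⟨μ', hμ', rfl⟩ 0
  obtain ⟨Eψ, Fψ, gE, gF, vE, vF, nE, nF, -⟩ := vertex_fields H hψ
  obtain ⟨k, hk⟩ := root_int H hN hr hψ.1
  have hp := root_pos H hN hr gE vE nE
  have key : l ψ - k * l χ ≤ a := by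
    rcases le_total 0 k with h0 | h0
    · lift k to ℕ using h0
      obtain ⟨hG, hV⟩ := iter_field hr.globF hr.hvF gE vE k
      have hne := hp.2.2.2.1 k (by rw [hk]; ring)
      have h3 := hull_field H l ha hmax hG hV hne
      rw [map_add, map_nsmul, map_neg, nsmul_eq_mul] at h3
      linarith
    · obtain ⟨k', hk'⟩ : ∃ k' : ℕ, (k' : ℤ) = -k := ⟨(-k).toNat, Int.toNat_of_nonneg (by omega)⟩
      obtain ⟨hG, hV⟩ := iter_field hr.globE hr.hvE gE vE k'
      have hne := hp.2.2.2.2 k' (by rw [hk, hk']; ring)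
      have h3 := hull_field H l ha hmax hG hV hne
      rw [map_add, map_nsmul, nsmul_eq_mul] at h3
      have h4 : ((k' : ℕ) : ℤ) = -k := hk'
      rw [h4] at h3
      linarith
  have h5 : g ψ = N * (l ψ - k * l χ) := by
    rw [hg, hk]
    ring
  have h6 : N * (l ψ - k * l χ) ≤ N * a := mul_le_mul_of_nonneg_left key hN.le
  linarith

theorem root_bd (H : Hyp 𝒜) {N : ℤ} (hN : 0 < N) {χ : Fin r → ℤ} (hχ : Vx 𝒜 χ)
    {β : (Fin r → ℤ) →+ ℤ} {E F : VF R} (hr : Root0 𝒜 N χ β E F) {μ : Fin r → ℤ}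
    (hμ : Wt 𝒜 μ) (h1 : μ ≠ χ) (h2 : μ ≠ -χ) : |β μ| ≤ N := by
  have hχ' := hχ
  obtain ⟨hw, l, hl, hex⟩ := hχ
  have hmax : ∀ ω, Wt 𝒜 ω → l ω ≤ l χ := fun ω hω => by
    by_cases h : ω = χ
    · rw [h]
    · exact (hex ω hω h).le
  have hneg := neg_max H l hl hmax
  -- the lower bound
  have low : ∀ ω, Wt 𝒜 ω → ∀ k : ℤ, β ω = N * k → -2 ≤ k := by
    intro ω hω k hk
    have h3 := root_hull H hN hχ' hr l (l χ) hmax hω
    have h4 := hneg ω hω
    rw [hk] at h3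
    by_contra hc
    push Not at hc
    have h5 : N * k * l χ ≤ N * (-3) * l χ := by
      apply mul_le_mul_of_nonneg_right _ hl.le
      exact mul_le_mul_of_nonneg_left (by omega) hN.le
    have h6 : N * (-(l χ)) ≤ N * l ω := mul_le_mul_of_nonneg_left h4 hN.le
    have h7 : 0 < N * l χ := mul_pos hN hl
    nlinarith
  -- a vertex on the opposite face with `β = -2 N` is `-χ`
  have opp : ∀ ψ, Vx 𝒜 ψ → l ψ = -(l χ) → β ψ = -2 * N → ψ = -χ := by
    intro ψ hψ hlψ hβψ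
    obtain ⟨Eψ, Fψ, gE, gF, vE, vF, nE, nF, -⟩ := vertex_fields H hψ
    have hp := root_pos H hN hr gE vE nE
    obtain ⟨hG, hV⟩ := iter_field hr.globE hr.hvE gE vE 2
    have hne := hp.2.2.2.2 2 (by rw [hβψ]; push_cast; ring)
    by_contra hc
    have hc' : ψ + 2 • χ ≠ χ := by
      intro h
      apply hc
      have : ψ = (ψ + 2 • χ) - 2 • χ := by abel
      rw [this, h, two_nsmul]
      abel
    obtain ⟨g, hg⟩ := sep hc'
    obtain ⟨C, hC0, hC⟩ := wt_bound H g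
    have hCχ := abs_le.1 (hC χ hw)
    obtain ⟨l', hl'⟩ : ∃ l' : (Fin r → ℤ) →+ ℤ, ∀ ω, l' ω = (2 * C + 1) * l ω + g ω :=
      ⟨(2 * C + 1) • l + g, fun ω => by
        simp only [AddMonoidHom.add_apply, AddMonoidHom.smul_apply, smul_eq_mul]⟩
    have hl'χ : 0 ≤ l' χ := by
      rw [hl']
      nlinarith
    have hmax' : ∀ ω, Wt 𝒜 ω → l' ω ≤ l' χ := by
      intro ω hω
      by_cases h : ω = χ
      · rw [h]
      · have h3 := hex ω hω h
        have h4 := abs_le.1 (hC ω hω)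
        rw [hl', hl']
        have h5 : (2 * C + 1) * l ω ≤ (2 * C + 1) * (l χ - 1) :=
          mul_le_mul_of_nonneg_left (by omega) (by omega)
        linarith
    have h3 := hull_field H l' hl'χ hmax' hG hV hne
    rw [hl', hl'] at h3
    have h4 : l (ψ + 2 • χ) = l χ := by
      rw [map_add, map_nsmul, hlψ, nsmul_eq_mul]
      push_cast
      ring
    rw [h4] at h3
    linarith
  obtain ⟨k, hk⟩ := root_int H hN hr hμ
  have hklow := low μ hμ k hk
  have hlμ : l μ < l χ := hex μ hμ h1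
  have hup : k ≤ 1 := by
    have h3 := root_hull H hN hχ' hr (-l) (l χ) (fun ω hω => by
      have := hneg ω hω
      rw [AddMonoidHom.neg_apply]
      linarith) hμ
    rw [AddMonoidHom.neg_apply, AddMonoidHom.neg_apply, hk] at h3
    by_contra hc
    push Not at hc
    have h5 : N * 2 * l χ ≤ N * k * l χ := by
      apply mul_le_mul_of_nonneg_right _ hl.le
      exact mul_le_mul_of_nonneg_left (by omega) hN.le
    have h6 : N * l μ < N * l χ := mul_lt_mul_of_pos_left hlμ hN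
    nlinarith
  have hk2 : k ≠ -2 := by
    rintro rfl
    have hlm : l μ = -(l χ) := by
      have h3 := root_hull H hN hχ' hr l (l χ) hmax hμ
      rw [hk] at h3
      have h4 := hneg μ hμ
      have h5 : N * l μ ≤ N * (-(l χ)) := by linarith
      have h6 := le_of_mul_le_mul_left h5 hN
      omega
    obtain ⟨g0, hg0⟩ := sep h2
    obtain ⟨C, hC0, hC⟩ := wt_bound H g0
    obtain ⟨g, hg⟩ : ∃ g : (Fin r → ℤ) →+ ℤ, ∀ ω, g ω = g0 ω - (2 * C + 1) * β ω :=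
      ⟨g0 - (2 * C + 1) • β, fun ω => by
        simp only [AddMonoidHom.sub_apply, AddMonoidHom.smul_apply, smul_eq_mul]⟩
    obtain ⟨ψ, hψ, hψa, hψm⟩ := max_at_vertex H (-l) hl (fun ω hω => by
      have := hneg ω hω
      rw [AddMonoidHom.neg_apply]
      linarith) ⟨μ, hμ, by rw [AddMonoidHom.neg_apply, hlm, neg_neg]⟩ g
    rw [AddMonoidHom.neg_apply] at hψa
    have h3 := hψm μ hμ (by rw [AddMonoidHom.neg_apply, hlm, neg_neg])
    rw [hg, hg, hk] at h3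
    obtain ⟨k', hk'⟩ := root_int H hN hr hψ.1
    have h4 := low ψ hψ.1 k' hk'
    by_cases h5 : k' = -2
    · subst h5
      have h6 := opp ψ hψ (by linarith) (by rw [hk']; ring)
      rw [hk', h6] at h3
      linarith
    · have h6 : N * (-1) ≤ N * k' := mul_le_mul_of_nonneg_left (by omega) hN.le
      have h7 : (2 * C + 1) * (N * (-1)) ≤ (2 * C + 1) * (N * k') :=
        mul_le_mul_of_nonneg_left h6 (by omega)
      have h8 := abs_le.1 (hC ψ hψ.1)
      have h9 := abs_le.1 (hC μ hμ)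
      rw [hk'] at h3
      have h10 : (2 * C + 1) * 1 ≤ (2 * C + 1) * N :=
        mul_le_mul_of_nonneg_left (by omega) (by omega)
      linarith
  rw [hk, abs_le]
  have h3 : N * (-1) ≤ N * k := mul_le_mul_of_nonneg_left (by omega) hN.le
  have h4 : N * k ≤ N * 1 := mul_le_mul_of_nonneg_left hup hN.le
  constructor <;> linarith

namespace C07

theorem exists_root_one (H : Hyp 𝒜) {χ : Fin r → ℤ} (hχ : Vx 𝒜 χ) :
    ∃ (N : ℤ) (β : (Fin r → ℤ) →+ ℤ) (E F : VF R), 0 < N ∧ Root 𝒜 N χ β E F := by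
  obtain ⟨E, F, gE, gF, vE, vF, nE, nF, aE, aF, -⟩ := vertex_fields H hχ
  obtain ⟨N, s, β, α, hN, hs, h2, hbr⟩ := vertex_bracket H hχ gE gF vE vF nE nF aE aF
  have hr : Root0 𝒜 N χ β E (s • F) := ⟨gE, gF.smulC s, vE, vF.smulC s, h2, α, hbr⟩
  refine ⟨N, β, E, s • F, hN, gE, gF.smulC s, vE, vF.smulC s, h2, ⟨α, hbr⟩, aE, ?_, ?_, ?_, ?_⟩
  · intro y hy h0
    apply aF y hy
    have h1 := h0.smulC s⁻¹
    rw [smul_smul, inv_mul_cancel₀ hs, one_smul, smul_zero] at h1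
    exact h1
  · exact fun ω hω => root_int H hN hr hω
  · exact fun ω hω h1 h2 => root_bd H hN hχ hr hω h1 h2
  · exact fun l a hmax μ hμ => root_hull H hN hχ hr l a hmax hμ

end C07

/-- C08. Assembly of C03 - C07, with a common `N` for a finite set of vertices. -/
theorem exists_roots (H : Hyp 𝒜) {ι : Type} [Fintype ι] (χ : ι → Fin r → ℤ)
    (hχ : ∀ i, Vx 𝒜 (χ i)) : ∃ (N : ℤ) (β : ι → ((Fin r → ℤ) →+ ℤ)) (E F : ι → VF R), 0 < N ∧
      ∀ i, Root 𝒜 N (χ i) (β i) (E i) (F i) := by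
  classical
  choose N β E F hN hR using fun i => exists_root_one H (hχ i)
  refine ⟨∏ i, N i, fun i => (∏ j ∈ Finset.univ.erase i, N j) • β i, E,
    fun i => ((∏ j ∈ Finset.univ.erase i, N j : ℤ) : ℂ) • F i,
    Finset.prod_pos fun i _ => hN i, fun i => ?_⟩
  have h1 : ∏ j, N j = (∏ j ∈ Finset.univ.erase i, N j) * N i :=
    (Finset.prod_erase_mul _ _ (Finset.mem_univ i)).symm
  rw [h1]
  exact scale (hR i) (Finset.prod_pos fun j _ => hN j)

end Vale.Agent.P280.H63X
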