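import Vale.Agent.P280.N.D02
import Vale.Agent.P280.H63X.C07
import Vale.Agent.P280.H63X.Defs
open DirectSum Vale.Agent.P280.T Vale.Agent.P280.H127

namespace Vale.Agent.P280.H63X

open Vale.Agent.P280.N

variable {r : ℕ} {R : Type} [CommRing R] [IsDomain R] [Algebra ℂ R]
  {𝒜 : ℕ × (Fin r → ℤ) → Submodule ℂ R} [GradedAlgebra 𝒜]

omit [IsDomain R] in
/-- A functional is bounded on the weights. -/
theorem D02.exists_bd (H : Hyp 𝒜) (g : (Fin r → ℤ) →+ ℤ) :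
    ∃ K : ℤ, 0 ≤ K ∧ ∀ ω, Wt 𝒜 ω → |g ω| ≤ K := by
  obtain ⟨K, hK0, hK⟩ := H587.exists_bound (finite_weights H.hX) g
  refine ⟨K, hK0, ?_⟩
  rintro ω ⟨y, hω⟩
  obtain ⟨h1, h2⟩ := H587.tangentWeight_mem H.hX y.nv y.fix hω
  have h3 := hK _ h2 _ h1
  rwa [add_sub_cancel_left] at h3

/-- The field of a weight is moved to the reflected weight. -/
theorem D02.move (H : Hyp 𝒜) {N : ℤ} (hN : 0 < N) {χ : Fin r → ℤ}
    {β : (Fin r → ℤ) →+ ℤ} {E F : VF R} (hr : Root 𝒜 N χ β E F) {ψ : Fin r → ℤ} {D : VF R}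
    (hD : Glob D) (hDv : HV 𝒜 ψ D) (hne : D ≠ 0) {k : ℤ} (hk : β ψ = k * N) :
    ∃ D' : VF R, Glob D' ∧ HV 𝒜 (ψ - k • χ) D' ∧ D' ≠ 0 := by
  have h0 : Root0 𝒜 N χ β E F := ⟨hr.globE, hr.globF, hr.hvE, hr.hvF, hr.two, hr.br⟩
  have h1 := root_pos H hN h0 hD hDv hne
  rcases Int.eq_nat_or_neg k with ⟨n, hn | hn⟩
  · have h2 := D02.iter hr.globF hr.hvF hD hDv n
    refine ⟨_, h2.1, h2.2.cast ?_, h1.2.2.2.1 n (by rw [hk, hn])⟩
    rw [hn, smul_neg, sub_eq_add_neg]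
  · have h2 := D02.iter hr.globE hr.hvE hD hDv n
    refine ⟨_, h2.1, h2.2.cast ?_, h1.2.2.2.2 n (by rw [hk, hn]; ring)⟩
    rw [hn, neg_smul, sub_neg_eq_add]

/-- A global field whose weight has at least the value of `l` at a vertex exposed by `l`. -/
theorem D02.eq_of_field (H : Hyp 𝒜) {ψ : Fin r → ℤ} {l : (Fin r → ℤ) →+ ℤ}
    (hl0 : 0 < l ψ) (hl : ∀ ω, Wt 𝒜 ω → ω ≠ ψ → l ω < l ψ) {D : VF R} (hD : Glob D)
    {ω : Fin r → ℤ} (hDv : HV 𝒜 ω D) (hne : D ≠ 0) (h : l ω = l ψ) : ω = ψ := by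
  have key : ∀ g : (Fin r → ℤ) →+ ℤ, g ω ≤ g ψ := by
    intro g
    obtain ⟨K, hK0, hK⟩ := D02.exists_bd H g
    have hM : ∀ x, ((K + |g ψ| + 1) • l + g) x = (K + |g ψ| + 1) * l x + g x := fun x => by
      rw [AddMonoidHom.add_apply, AddMonoidHom.smul_apply, smul_eq_mul]
    have h1 : 0 ≤ (K + |g ψ| + 1) * l ψ + g ψ := by
      have h2 := neg_abs_le (g ψ)
      have h3 : 0 ≤ |g ψ| := abs_nonneg _
      nlinarith
    have h2 := hull_field H ((K + |g ψ| + 1) • l + g) h1 (fun ξ hξ => by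
      rw [hM]
      by_cases h3 : ξ = ψ
      · rw [h3]
      · have h4 := hl ξ hξ h3
        have h5 := (abs_le.1 (hK ξ hξ)).2
        have h6 := neg_abs_le (g ψ)
        have h7 : 0 ≤ |g ψ| := abs_nonneg _
        nlinarith) hD hDv hne
    rw [hM, h] at h2
    linarith
  funext i
  have h1 := key (Pi.evalAddMonoidHom (fun _ : Fin r => ℤ) i)
  have h2 := key (-Pi.evalAddMonoidHom (fun _ : Fin r => ℤ) i)
  simp only [AddMonoidHom.neg_apply, Pi.evalAddMonoidHom_apply] at h1 h2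
  omega

omit [IsDomain R] in
/-- A functional attains its maximum over the weights. -/
theorem D02.exists_max (H : Hyp 𝒜) (g : (Fin r → ℤ) →+ ℤ) (hex : ∃ ω, Wt 𝒜 ω) :
    ∃ ω, Wt 𝒜 ω ∧ ∀ ξ, Wt 𝒜 ξ → g ξ ≤ g ω := by
  obtain ⟨K, _, hK⟩ := D02.exists_bd H g
  obtain ⟨ω, hω⟩ := hex
  obtain ⟨a, ⟨ξ, hξ, hξa⟩, ha⟩ := Int.exists_greatest_of_bdd (P := fun a => ∃ ξ, Wt 𝒜 ξ ∧ g ξ = a)
    ⟨K, fun z hz => by
      obtain ⟨ξ, hξ, rfl⟩ := hz
      exact (abs_le.1 (hK ξ hξ)).2⟩ ⟨g ω, ω, hω, rfl⟩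
  exact ⟨ξ, hξ, fun ζ hζ => by rw [hξa]; exact ha _ ⟨ζ, hζ, rfl⟩⟩

/-- D02b. The reflection of a vertex is a vertex. -/
theorem reflect_vertex (H : Hyp 𝒜) {N : ℤ} (hN : 0 < N) {χ : Fin r → ℤ} (hχ : Vx 𝒜 χ)
    {β : (Fin r → ℤ) →+ ℤ} {E F : VF R} (hr : Root 𝒜 N χ β E F) {ψ : Fin r → ℤ} (hψ : Vx 𝒜 ψ)
    {k : ℤ} (hk : β ψ = k * N) : Vx 𝒜 (ψ - k • χ) := by
  obtain ⟨hψw, l, hl0, hl⟩ := hψ
  have hmax : ∀ ω, Wt 𝒜 ω → l ω ≤ l ψ := fun ω hω => by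
    by_cases h : ω = ψ
    · rw [h]
    · exact (hl ω hω h).le
  -- the reflected functional
  have hL : ∀ x, (N • l - (l χ) • β) x = N * l x - β x * l χ := fun x => by
    rw [AddMonoidHom.sub_apply, AddMonoidHom.smul_apply, AddMonoidHom.smul_apply, smul_eq_mul,
      smul_eq_mul, mul_comm (l χ)]
  have hLk : (N • l - (l χ) • β) (ψ - k • χ) = N * l ψ := by
    rw [hL, map_sub, map_sub, map_zsmul, map_zsmul, hk, hr.two, smul_eq_mul, smul_eq_mul]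
    ring
  have hb : ∀ μ, Wt 𝒜 μ → (N • l - (l χ) • β) μ ≤ N * l ψ := fun μ hμ => by
    rw [hL]
    exact hr.hull l (l ψ) hmax μ hμ
  -- the maximum is attained
  obtain ⟨E₁, _, hE1, _, hE1v, _, hE10, _, _, _, _⟩ := vertex_fields H ⟨hψw, l, hl0, hl⟩
  obtain ⟨D, hD, hDv, hD0⟩ := D02.move H hN hr hE1 hE1v hE10 hk
  obtain ⟨μ, hμ, hμm⟩ := D02.exists_max H (N • l - (l χ) • β) ⟨ψ, hψw⟩
  have hpos : 0 < N * l ψ := mul_pos hN hl0
  have h1 : (N • l - (l χ) • β) μ = N * l ψ := by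
    refine le_antisymm (hb μ hμ) ?_
    by_contra hcon
    push Not at hcon
    have h2 := hull_field H (N • l - (l χ) • β) (a := max 0 ((N • l - (l χ) • β) μ))
      (le_max_left _ _) (fun ω hω => (hμm ω hω).trans (le_max_right _ _)) hD hDv hD0
    rw [hLk] at h2
    rcases le_max_iff.1 h2 with h3 | h3
    · linarith
    · linarith
  obtain ⟨χ', hχ', hχ'l, -⟩ := max_at_vertex H (N • l - (l χ) • β) hpos hb ⟨μ, hμ, h1⟩ 0
  -- move the field of the vertex back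
  obtain ⟨k', hk'⟩ := hr.int χ' hχ'.1
  have hk2 : β χ' = k' * N := by rw [hk', mul_comm]
  obtain ⟨E₂, _, hE2, _, hE2v, _, hE20, _, _, _, _⟩ := vertex_fields H hχ'
  obtain ⟨D', hD', hD'v, hD'0⟩ := D02.move H hN hr hE2 hE2v hE20 hk2
  have h2 : l (χ' - k' • χ) = l ψ := by
    rw [hL, hk2] at hχ'l
    rw [map_sub, map_zsmul, smul_eq_mul]
    have h3 : N * (l χ' - k' * l χ) = N * l ψ := by linarith
    exact mul_left_cancel₀ hN.ne' h3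
  have h3 := D02.eq_of_field H hl0 hl hD' hD'v hD'0 h2
  have h4 : χ' = ψ + k' • χ := by rw [← h3, sub_add_cancel]
  have h5 : k' = -k := by
    rw [h4, map_add, map_zsmul, hk, hr.two, smul_eq_mul] at hk2
    have h6 : N * (k + k') = N * 0 := by linarith
    have h7 := mul_left_cancel₀ hN.ne' h6
    omega
  have h6 : χ' = ψ - k • χ := by rw [h4, h5, neg_smul, sub_eq_add_neg]
  rw [← h6]
  exact hχ'

end Vale.Agent.P280.H63X
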