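import Vale.Agent.P280.H63X.Chain
import Vale.Agent.P280.H155.Nef0
import Vale.Agent.P280.H989.ND

/-! P280, helper63, route X: the weights on a ray, and the hypotheses of plan N. -/

open DirectSum Vale.Agent.P280.T Vale.Agent.P280.H127

namespace Vale.Agent.P280.H63X

open Vale.Agent.P280.N Vale.Agent.P280.N.H989

variable {r : ℕ} {R : Type} [CommRing R] [IsDomain R] [Algebra ℂ R]
  {𝒜 : ℕ × (Fin r → ℤ) → Submodule ℂ R} [GradedAlgebra 𝒜]

/-- Two proportional weights: equal or one is twice the other, up to a sign. -/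
theorem dich (H : Hyp 𝒜) {ω ω' : Fin r → ℤ} (hω : Wt 𝒜 ω) (hω' : Wt 𝒜 ω') {a b : ℤ} (ha : a ≠ 0)
    (hab : a • ω = b • ω') :
    ω = ω' ∨ ω = -ω' ∨ ω' = 2 • ω ∨ ω' = -(2 • ω) ∨ ω = 2 • ω' ∨ ω = -(2 • ω') := by
  classical
  obtain ⟨N, β, E, F, hN, hr⟩ := exists_root_data H
  have hRS := exists_RS H hN hr
  have hω0 : ω ≠ 0 := by
    rintro rfl
    obtain ⟨y, hy⟩ := hω
    exact ne_zero_of_pi H hy rfl
  obtain ⟨χ, hχ, hχω⟩ : ∃ χ ∈ VV H, β χ ω ≠ 0 := by
    by_contra hcon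
    push Not at hcon
    exact hω0 (hRS.nd hcon fun g hg => hRS.ext0 g hg hω)
  have key : ∀ ψ, Wt 𝒜 ψ → β χ ψ ≠ 0 → ∃ k : ℤ, β χ ψ = N * k ∧
      (k = 1 ∨ k = -1 ∨ k = 2 ∨ k = -2) := by
    intro ψ hψ hne
    by_cases h1 : ψ = χ
    · exact ⟨2, by rw [h1, hRS.two χ hχ]; ring, by tauto⟩
    by_cases h2 : ψ = -χ
    · exact ⟨-2, by rw [h2, map_neg, hRS.two χ hχ]; ring, by tauto⟩
    obtain ⟨k, hk⟩ := hRS.dvd χ hχ ψ hψ
    have h3 := hRS.bd χ hχ ψ hψ h1 h2
    rw [hk, abs_le] at h3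
    have h4 : k ≤ 1 := by
      by_contra hc
      push Not at hc
      nlinarith [h3.2]
    have h5 : -1 ≤ k := by
      by_contra hc
      push Not at hc
      nlinarith [h3.1]
    have h6 : k ≠ 0 := by
      rintro rfl
      exact hne (by rw [hk, mul_zero])
    exact ⟨k, hk, by omega⟩
  have hb : β χ ω' ≠ 0 := by
    intro h0
    have h1 := congrArg (β χ) hab
    rw [map_zsmul, map_zsmul, h0, smul_zero, smul_eq_mul] at h1
    rcases mul_eq_zero.1 h1 with h2 | h2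
    · exact ha h2
    · exact hχω h2
  obtain ⟨k, hk, hk'⟩ := key ω hω hχω
  obtain ⟨k2, hk2, hk2'⟩ := key ω' hω' hb
  have h1 : a * k = b * k2 := by
    have h1 := congrArg (β χ) hab
    rw [map_zsmul, map_zsmul, hk, hk2, smul_eq_mul, smul_eq_mul] at h1
    apply mul_left_cancel₀ hN.ne'
    linear_combination h1
  have h2 : k2 • ω = k • ω' := by
    have h3 : a • (k2 • ω) = a • (k • ω') := by
      rw [smul_comm, hab, smul_smul, smul_smul, h1, mul_comm]
    exact (smul_right_injective _ ha) h3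
  have e2 : ∀ x : Fin r → ℤ, (2 : ℤ) • x = 2 • x := fun x => by
    rw [← natCast_zsmul]; rfl
  rcases hk' with rfl | rfl | rfl | rfl <;> rcases hk2' with rfl | rfl | rfl | rfl <;>
    simp only [neg_smul, one_smul, e2] at h2
  · exact Or.inl h2
  · exact Or.inr (Or.inl (by rw [← h2, neg_neg]))
  · exact Or.inr (Or.inr (Or.inl h2.symm))
  · exact Or.inr (Or.inr (Or.inr (Or.inl h2.symm)))
  · exact Or.inr (Or.inl h2)
  · exact Or.inl (neg_injective h2)
  · exact Or.inr (Or.inr (Or.inr (Or.inl (by rw [h2, neg_neg]))))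
  · exact Or.inr (Or.inr (Or.inl (neg_injective h2).symm))
  · exact Or.inr (Or.inr (Or.inr (Or.inr (Or.inl h2))))
  · exact Or.inr (Or.inr (Or.inr (Or.inr (Or.inr (by rw [← h2, neg_neg])))))
  · refine Or.inl ?_
    rw [← e2, ← e2] at h2
    exact smul_right_injective _ (two_ne_zero (α := ℤ)) h2
  · refine Or.inr (Or.inl ?_)
    rw [← e2, ← e2, ← smul_neg] at h2
    have := smul_right_injective _ (two_ne_zero (α := ℤ)) h2
    rw [← this, neg_neg]
  · exact Or.inr (Or.inr (Or.inr (Or.inr (Or.inr h2))))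
  · exact Or.inr (Or.inr (Or.inr (Or.inr (Or.inl (neg_injective h2)))))
  · refine Or.inr (Or.inl ?_)
    rw [← e2, ← e2, ← smul_neg] at h2
    exact smul_right_injective _ (two_ne_zero (α := ℤ)) h2
  · refine Or.inl ?_
    have h3 := neg_injective h2
    rw [← e2, ← e2] at h3
    exact smul_right_injective _ (two_ne_zero (α := ℤ)) h3

/-- `nef_string` for `Root0`. The field of weight `-a` vanishes at `y`; the string of `χ` goes up. -/
theorem nef_string0 (H : Hyp 𝒜) {N : ℤ} (hN : 0 < N) {a : Fin r → ℤ} {β : (Fin r → ℤ) →+ ℤ}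
    {E F : VF R} (hr : Root0 𝒜 N a β E F) (hint : ∀ ω, Wt 𝒜 ω → N ∣ β ω) (y : FP 𝒜)
    (hna : ¬ y.Pi (-a)) {χ : Fin r → ℤ} (hχ : y.Pi χ) (hβ : β χ < 0) : y.Pi (χ + a) := by
  obtain ⟨De, Df, c, -, -, hDe, hDf, hbr⟩ := H155.root0_ders hr
  have hNC : (N : ℂ) ≠ 0 := by exact_mod_cast hN.ne'
  obtain ⟨κ, hκ⟩ := hint χ ⟨y, hχ⟩
  have hκneg : κ < 0 := by
    rw [hκ] at hβ
    by_contra h
    push Not at h
    have := mul_nonneg hN.le h
    omega
  let b : (Fin r → ℤ) →+ ℂ := (AddMonoidHom.mulLeft ((N : ℂ)⁻¹)).comp ((Int.castAddHom ℂ).comp β)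
  have hb : ∀ m, b m = (N : ℂ)⁻¹ * (β m : ℂ) := fun m => rfl
  have hba : b a = 2 := by
    rw [hb, hr.two]
    push_cast
    field_simp
  have hbχ : b χ = κ := by
    rw [hb, hκ]
    push_cast
    field_simp
  have hE' : H93.IsHField 𝒜 a ((N : ℂ)⁻¹ • De) := fun d m h hh =>
    Submodule.smul_mem _ _ (hDe d m h hh)
  refine H224.exch H.hX H.hN y.nv y.fix hE' hDf (b := b) (c := -((N : ℂ)⁻¹ * c)) hba ?_ hna hbχ
    hκneg hχ
  intro d m h hh
  have h1 := hbr d m h hh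
  rw [Derivation.commutator_apply]
  change Df ((N : ℂ)⁻¹ • De h) - (N : ℂ)⁻¹ • De (Df h) = _
  rw [Df.map_smul, ← smul_sub]
  have h2 : Df (De h) - De (Df h) = -((c * d + (-((Int.castAddHom ℂ).comp β) :
      (Fin r → ℤ) →+ ℂ) m) • h) := by
    rw [← h1]
    abel
  rw [h2, ← neg_smul, smul_smul, hb, AddMonoidHom.neg_apply, AddMonoidHom.comp_apply,
    Int.coe_castAddHom]
  congr 1
  ring

/-- The double of a weight is a vertex. -/
theorem double_vx (H : Hyp 𝒜) {ω : Fin r → ℤ} (hω : Wt 𝒜 ω) (hω' : Wt 𝒜 (2 • ω)) :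
    Vx 𝒜 (2 • ω) := by
  classical
  obtain ⟨N, β, E, F, hN, hr⟩ := exists_root_data H
  have hRS := exists_RS H hN hr
  have hω0 : ω ≠ 0 := by
    rintro rfl
    obtain ⟨y, hy⟩ := hω
    exact ne_zero_of_pi H hy rfl
  obtain ⟨χ, hχ, hχω⟩ : ∃ χ ∈ VV H, β χ ω ≠ 0 := by
    by_contra hcon
    push Not at hcon
    exact hω0 (hRS.nd hcon fun g hg => hRS.ext0 g hg hω)
  obtain ⟨k, hk⟩ := hRS.dvd χ hχ ω hω
  have hk0 : k ≠ 0 := by
    rintro rfl
    exact hχω (by rw [hk, mul_zero])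
  have h2 : β χ (2 • ω) = 2 * (N * k) := by
    rw [map_nsmul, hk, nsmul_eq_mul]
    push_cast
    ring
  by_cases h3 : 2 • ω = χ
  · rw [h3]
    exact (mem_VV H).1 hχ
  by_cases h4 : 2 • ω = -χ
  · rw [h4]
    exact c03_vx_neg H ((mem_VV H).1 hχ)
  exfalso
  have h5 := hRS.bd χ hχ (2 • ω) hω' h3 h4
  rw [h2, abs_le] at h5
  rcases lt_or_gt_of_ne hk0 with h | h
  · nlinarith [h5.1]
  · nlinarith [h5.2]

/-- `2 ε` and `-ε` are not both tangent weights at the same point. -/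
theorem no_mixed (H : Hyp 𝒜) (hopp : ∀ (y : FP 𝒜) (χ : Fin r → ℤ), y.Pi χ → ¬ y.Pi (-χ))
    {ε : Fin r → ℤ} {z : FP 𝒜} (h1 : z.Pi (2 • ε)) (h2 : z.Pi (-ε)) : False := by
  have hε0 : ε ≠ 0 := by
    rintro rfl
    rw [neg_zero] at h2
    exact ne_zero_of_pi H h2 rfl
  have hv : Vx 𝒜 (2 • ε) := by
    have h3 : Wt 𝒜 (-ε) := ⟨z, h2⟩
    by_cases h4 : Vx 𝒜 (2 • (-ε))
    · have h5 := c03_vx_neg H h4
      rwa [smul_neg, neg_neg] at h5
    · classical
      obtain ⟨N, β, E, F, hN, hr⟩ := exists_root_data H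
      have hRS := exists_RS H hN hr
      obtain ⟨χ, hχ, hχω⟩ : ∃ χ ∈ VV H, β χ (-ε) ≠ 0 := by
        by_contra hcon
        push Not at hcon
        exact (neg_ne_zero.2 hε0) (hRS.nd hcon fun g hg => hRS.ext0 g hg h3)
      obtain ⟨k, hk⟩ := hRS.dvd χ hχ (-ε) h3
      have hk0 : k ≠ 0 := by
        rintro rfl
        exact hχω (by rw [hk, mul_zero])
      have h5 : β χ (2 • ε) = -(2 * (N * k)) := by
        have h6 : β χ ε = -(N * k) := by
          rw [← hk, map_neg, neg_neg]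
        rw [map_nsmul, h6, nsmul_eq_mul]
        push_cast
        ring
      by_cases h6 : 2 • ε = χ
      · rw [h6]
        exact (mem_VV H).1 hχ
      by_cases h7 : 2 • ε = -χ
      · rw [h7]
        exact c03_vx_neg H ((mem_VV H).1 hχ)
      exfalso
      have h8 := hRS.bd χ hχ (2 • ε) ⟨z, h1⟩ h6 h7
      rw [h5, abs_le] at h8
      rcases lt_or_gt_of_ne hk0 with h | h
      · nlinarith [h8.2]
      · nlinarith [h8.1]
  obtain ⟨N, β, E, F, hN, hr⟩ := exists_root_data H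
  have hR := hr _ hv
  have h3 : β (2 • ε) (-ε) = -N := by
    have h4 := hR.two
    rw [map_nsmul, nsmul_eq_mul] at h4
    rw [map_neg]
    push_cast at h4
    linarith
  have h4 := nef_string0 H hN (H155.toRoot0 hR) hR.int z (hopp z _ h1) h2 (by rw [h3]; omega)
  have h5 : -ε + 2 • ε = ε := by
    rw [two_nsmul]
    abel
  rw [h5] at h4
  exact hopp z _ h4 h2

/-- No point has weights on both sides of a line. -/
theorem no_both (H : Hyp 𝒜) (hopp : ∀ (y : FP 𝒜) (χ : Fin r → ℤ), y.Pi χ → ¬ y.Pi (-χ))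
    {a : Fin r → ℤ} {z : FP 𝒜} {j j' : ℕ} (hj : 1 ≤ j) (hj' : 1 ≤ j')
    (h1 : z.Pi (j • a)) (h2 : z.Pi (-(j' • a))) : False := by
  have ha : a ≠ 0 := by
    rintro rfl
    rw [smul_zero] at h1
    exact ne_zero_of_pi H h1 rfl
  have hz : ∀ k : ℤ, k • a = 0 → k = 0 := fun k hk => (smul_eq_zero.1 hk).resolve_right ha
  have hc : ∀ n : ℕ, n • a = (n : ℤ) • a := fun n => (natCast_zsmul a n).symm
  rcases dich H ⟨z, h1⟩ ⟨z, h2⟩ (a := j') (b := -j) (by omega) (by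
    rw [neg_smul, smul_neg, neg_neg, natCast_zsmul, natCast_zsmul, smul_smul, smul_smul, mul_comm])
    with h | h | h | h | h | h
  · rw [hc, hc] at h
    have h3 : ((j : ℤ) + j') • a = 0 := by rw [add_smul, h, neg_add_cancel]
    have := hz _ h3
    omega
  · rw [neg_neg] at h
    rw [← h] at h2
    exact hopp z _ h1 h2
  · rw [hc, hc, ← natCast_zsmul, smul_smul] at h
    have h3 : ((2 : ℕ) * (j : ℤ) + j') • a = 0 := by rw [add_smul, ← h, neg_add_cancel]
    have := hz _ h3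
    push_cast at this
    omega
  · rw [h] at h2
    refine no_mixed H hopp (ε := -(j • a)) (z := z) ?_ ?_
    · rw [smul_neg]
      exact h2
    · rw [neg_neg]
      exact h1
  · rw [hc, hc, ← natCast_zsmul, smul_neg, smul_smul] at h
    have h3 : ((j : ℤ) + (2 : ℕ) * j') • a = 0 := by rw [add_smul, h, neg_add_cancel]
    have := hz _ h3
    push_cast at this
    omega
  · rw [h] at h1
    refine no_mixed H hopp (ε := j' • a) (z := z) ?_ h2
    rw [smul_neg, neg_neg] at h1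
    exact h1

end Vale.Agent.P280.H63X
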