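import Vale.Agent.P280.H63X.Z
import Vale.Agent.P280.H63X.Dich
import Vale.Agent.P280.N2.F2
import Vale.Agent.P280.N2.RealInt
import Vale.Agent.P280.H11.PrimeSpan
import Vale.Agent.P280.H11.Pt2

/-! P280, helper63, route X: the theorem on balanced weights. -/

open DirectSum Vale.Agent.P280.T Vale.Agent.P280.H127

namespace Vale.Agent.P280.H63X

open Vale.Agent.P280.N Vale.Agent.P280.N2.F Vale.Agent.P280.H11

section
variable {r : ℕ} {R : Type} [CommRing R] [IsDomain R] [Algebra ℂ R]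
  {𝒜 : ℕ × (Fin r → ℤ) → Submodule ℂ R} [GradedAlgebra 𝒜]

/-- **Lemma Z.** -/
theorem both_signs (hX : IsTorusManifold 𝒜) (hiso : ∀ z : FP 𝒜, ¬ z.Pi 0) (y : FP 𝒜)
    {a : Fin r → ℤ} (ha0 : a ≠ 0) {n : ℕ} {u : Fin n → R} {wt : Fin n → Fin r → ℤ}
    (G : Gens (coarse 𝒜 (rl (AddMonoidHom.id (Fin r → ℤ)) y.ν)) y.q u wt)
    (hn : (n : ℕ∞) = (mx y.q).height) {i1 i2 : Fin n} (h12 : i1 ≠ i2)
    (h1 : ∃ j : ℕ, 1 ≤ j ∧ wt i1 = j • a) (h2 : ∃ j : ℕ, 1 ≤ j ∧ wt i2 = j • a) :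
    ∃ z : FP 𝒜, ∃ j j' : ℕ, 1 ≤ j ∧ 1 ≤ j' ∧ z.Pi (j • a) ∧ z.Pi (-(j' • a)) :=
  both_signs_of hX hiso y ha0 G (fun J _ _ h => prime_span hX y G hn J h)
    (fun _ hg => exists_pt2 hX y ha0 G hn h12 h1 h2 hg)

omit [IsDomain R] in
/-- Tangent vectors of a weight with one parameter are proportional. -/
theorem dep_of_unique (hX : IsTorusManifold 𝒜) (y : FP 𝒜) {n : ℕ} {u : Fin n → R}
    {wt : Fin n → Fin r → ℤ}
    (G : Gens (coarse 𝒜 (rl (AddMonoidHom.id (Fin r → ℤ)) y.ν)) y.q u wt) {χ : Fin r → ℤ}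
    {i1 : Fin n} (hu : ∀ j, wt j = χ → j = i1) {v v' : R →ₗ[ℂ] ℂ} (hv : IsTangent y.q v)
    (hw : HasWeight 𝒜 y.ν χ v) (hv' : IsTangent y.q v') (hw' : HasWeight 𝒜 y.ν χ v') :
    ∃ c c' : ℂ, (c ≠ 0 ∨ c' ≠ 0) ∧ ∀ h, c * v h + c' * v' h = 0 := by
  have hkill : ∀ w : R →ₗ[ℂ] ℂ, IsTangent y.q w → HasWeight 𝒜 y.ν χ w → ∀ j, j ≠ i1 →
      w (u j) = 0 := by
    intro w _ hw j hj
    have hne : wt j ≠ χ := fun h => hj (hu j h)
    refine coarse_induction (P := fun x => w x = 0) (map_zero _)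
      (fun a b ha hb => by rw [map_add, ha, hb, add_zero]) ?_ (G.hom j)
    rintro ⟨d, m⟩ hi h hh
    rw [rl_apply, AddMonoidHom.id_apply] at hi
    by_contra h0
    have h1 := hw d m h hh h0
    apply hne
    rw [← hi, h1]
    abel
  have hzero : ∀ w : R →ₗ[ℂ] ℂ, IsTangent y.q w → (∀ j, w (u j) = 0) → ∀ h, w h = 0 := by
    intro w hw h0 h
    have h1 : h - algebraMap ℂ R (y.q h) ∈ mx y.q := mem_mx.mpr (by
      rw [map_sub, AlgHom.commutes]
      simp)
    obtain ⟨c, hc⟩ := G.expand h1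
    have h2 := Tan.sq (q := y.q) (v := w) hw hc
    rw [map_sub, map_sum, sub_eq_zero] at h2
    have h3 : w (algebraMap ℂ R (y.q h)) = 0 := by
      rw [Algebra.algebraMap_eq_smul_one, map_smul, Tan.one (q := y.q) hw, smul_zero]
    have h4 : w (h - algebraMap ℂ R (y.q h)) = 0 := by
      rw [h2]
      exact Finset.sum_eq_zero fun i _ => by rw [map_smul, h0, smul_zero]
    rw [map_sub, h3, sub_zero] at h4
    exact h4
  by_cases h0 : v (u i1) = 0
  · refine ⟨1, 0, Or.inl one_ne_zero, fun h => ?_⟩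
    have h1 := hzero v hv (fun j => by
      by_cases hj : j = i1
      · rw [hj, h0]
      · exact hkill v hv hw j hj) h
    rw [h1]
    ring
  · refine ⟨v' (u i1), -v (u i1), Or.inr (neg_ne_zero.2 h0), fun h => ?_⟩
    have h1 := hzero (v' (u i1) • v + (-v (u i1)) • v') (fun a b => by
      simp only [LinearMap.add_apply, LinearMap.smul_apply, smul_eq_mul]
      rw [hv a b, hv' a b]
      ring) (fun j => by
      simp only [LinearMap.add_apply, LinearMap.smul_apply, smul_eq_mul]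
      by_cases hj : j = i1
      · rw [hj]
        ring
      · rw [hkill v hv hw j hj, hkill v' hv' hw' j hj]
        ring) h
    simpa only [LinearMap.add_apply, LinearMap.smul_apply, smul_eq_mul] using h1

/-- A weight has multiplicity one at a point, or there is a point with weights on both sides. -/
theorem mult_or_both (hX : IsTorusManifold 𝒜) (hiso : ∀ z : FP 𝒜, ¬ z.Pi 0) (y : FP 𝒜)
    {χ : Fin r → ℤ} (hχ : y.Pi χ) :
    (∀ v v' : R →ₗ[ℂ] ℂ, IsTangent y.q v → HasWeight 𝒜 y.ν χ v → IsTangent y.q v' →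
      HasWeight 𝒜 y.ν χ v' → ∃ c c' : ℂ, (c ≠ 0 ∨ c' ≠ 0) ∧ ∀ h, c * v h + c' * v' h = 0) ∨
    ∃ z : FP 𝒜, ∃ j j' : ℕ, 1 ≤ j ∧ 1 ≤ j' ∧ z.Pi (j • χ) ∧ z.Pi (-(j' • χ)) := by
  have hχ0 : χ ≠ 0 := by
    rintro rfl
    exact hiso y hχ
  obtain ⟨n, u, wt, G, hn⟩ := exists_params_T hX y.nv (fix_of_isFixed y.fix)
  obtain ⟨i1, hi1⟩ := wt_of_tangentWeight hX y.fix G hn hχ
  by_cases hu : ∀ j, wt j = χ → j = i1
  · left
    intro v v' hv hw hv' hw'
    exact dep_of_unique hX y G hu hv hw hv' hw'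
  · right
    push Not at hu
    obtain ⟨j, hj, hne⟩ := hu
    exact both_signs hX hiso y hχ0 G hn hne
      ⟨1, le_rfl, by rw [hj, one_smul]⟩ ⟨1, le_rfl, by rw [hi1, one_smul]⟩

theorem no_double_of_ray (hX : IsTorusManifold 𝒜) (hiso : ∀ z : FP 𝒜, ¬ z.Pi 0) (y : FP 𝒜)
    {χ : Fin r → ℤ} (hχ : y.Pi χ) (hχ2 : y.Pi (2 • χ))
    (hno : ∀ (z : FP 𝒜) (j j' : ℕ), 1 ≤ j → 1 ≤ j' → z.Pi (j • χ) → z.Pi (-(j' • χ)) → False) :
    False := by
  have hχ0 : χ ≠ 0 := by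
    rintro rfl
    exact hiso y hχ
  obtain ⟨n, u, wt, G, hn⟩ := exists_params_T hX y.nv (fix_of_isFixed y.fix)
  obtain ⟨i1, hi1⟩ := wt_of_tangentWeight hX y.fix G hn hχ
  obtain ⟨i2, hi2⟩ := wt_of_tangentWeight hX y.fix G hn hχ2
  have hne : i1 ≠ i2 := by
    rintro rfl
    rw [hi1, two_nsmul] at hi2
    exact hχ0 (left_eq_add.1 hi2)
  obtain ⟨z, j1, j2, h1, h2, h3, h4⟩ := both_signs hX hiso y hχ0 G hn hne
    ⟨1, le_rfl, by rw [hi1, one_smul]⟩ ⟨2, by norm_num, hi2⟩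
  exact hno z j1 j2 h1 h2 h3 h4

/-- For a vertex, weights on both sides at a point are opposite. -/
theorem vx_both (hX : IsTorusManifold 𝒜) {χ : Fin r → ℤ} (hχ : Vx 𝒜 χ) {z : FP 𝒜} {j j' : ℕ}
    (hj : 1 ≤ j) (hj' : 1 ≤ j') (h1 : z.Pi (j • χ)) (h2 : z.Pi (-(j' • χ))) :
    z.Pi χ ∧ z.Pi (-χ) := by
  obtain ⟨-, l, hl, hm⟩ := hχ
  obtain ⟨g, hg⟩ := H587.exists_generic (finite_weights hX)
  have hmax : ∀ (y : R →ₐ[ℂ] ℂ) (ξ ω : Fin r → ℤ), ¬ IsVertex 𝒜 y → IsFixed 𝒜 y ξ →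
      TangentWeight 𝒜 y ξ ω → l ω ≤ l χ := by
    intro y ξ ω hy0 hy hω
    by_cases h : ω = χ
    · rw [h]
    · exact (hm ω ⟨⟨y, ξ, hy0, hy⟩, hω⟩ h).le
  have h3 := hmax _ _ _ z.nv z.fix h1
  have h4 := H93.neg_bound hX hg hl hmax _ _ _ z.nv z.fix h2
  rw [map_nsmul, nsmul_eq_mul] at h3
  rw [AddMonoidHom.neg_apply, map_neg, neg_neg, map_nsmul, nsmul_eq_mul] at h4
  have h5 : j = 1 := by
    by_contra hne
    have : (2 : ℤ) ≤ j := by exact_mod_cast (by omega : 2 ≤ j)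
    nlinarith
  have h6 : j' = 1 := by
    by_contra hne
    have : (2 : ℤ) ≤ j' := by exact_mod_cast (by omega : 2 ≤ j')
    nlinarith
  subst h5
  subst h6
  rw [one_smul] at h1 h2
  exact ⟨h1, h2⟩

/-- The hypotheses of plan N for a maximal torus whose balanced weights have multiplicity one and
do not occur with their doubles. -/
theorem toN (hX : IsTorusManifold 𝒜) (hN : NefOnRationalCurves 𝒜)
    (hU : ∀ (y z : FP 𝒜) (χ : Fin r → ℤ), z.Pi χ → z.Pi (-χ) → y.Pi χ → ¬ y.Pi (2 • χ) ∧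
      ∀ v v' : R →ₗ[ℂ] ℂ, IsTangent y.q v → HasWeight 𝒜 y.ν χ v → IsTangent y.q v' →
        HasWeight 𝒜 y.ν χ v' → ∃ c c' : ℂ, (c ≠ 0 ∨ c' ≠ 0) ∧ ∀ h, c * v h + c' * v' h = 0)
    (tor : ∀ D : Derivation ℂ R R, (∀ d m, ∀ h ∈ 𝒜 (d, m), D h ∈ 𝒜 (d, m)) →
      ∃ (α : ℂ) (β : (Fin r → ℤ) →+ ℂ), ∀ d m, ∀ h ∈ 𝒜 (d, m), ∃ n : ℕ,
        (fun x : R => D x - ((d : ℂ) * α + β m) • x)^[n] h = 0) : N.Hyp 𝒜 := by
  have hiso : ∀ z : FP 𝒜, ¬ z.Pi 0 := fun z h =>
    (hU z z 0 h (by rw [neg_zero]; exact h) h).1 (by rw [smul_zero]; exact h)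
  have H : Hyp 𝒜 :=
    { hX := hX
      hN := hN
      iso := fun x ν hx0 hx h => hiso ⟨x, ν, hx0, hx⟩ h
      mult := fun y χ hvx hχ v v' hv hw hv' hw' => by
        rcases mult_or_both hX hiso y hχ with h | ⟨z, j, j', hj, hj', h1, h2⟩
        · exact h v v' hv hw hv' hw'
        · obtain ⟨h3, h4⟩ := vx_both hX hvx hj hj' h1 h2
          exact (hU y z χ h3 h4 hχ).2 v v' hv hw hv' hw'
      tor := tor }
  -- there are no balanced weights
  have hopp : ∀ (z : FP 𝒜) (χ : Fin r → ℤ), z.Pi χ → ¬ z.Pi (-χ) := by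
    intro z χ h1 h2
    have hχ0 : χ ≠ 0 := by
      rintro rfl
      exact hiso z h1
    have hz : ∀ k : ℤ, k • χ = 0 → k = 0 := fun k hk => (smul_eq_zero.1 hk).resolve_right hχ0
    have hc : ∀ n : ℕ, n • χ = (n : ℤ) • χ := fun n => (natCast_zsmul χ n).symm
    have hj12 : ∀ (y : FP 𝒜) (j : ℕ), 1 ≤ j → y.Pi (j • χ) → j = 1 ∨ j = 2 := by
      intro y j hj hy
      rcases dich H ⟨z, h1⟩ ⟨y, hy⟩ (a := j) (b := 1) (by omega) (by
        rw [one_smul, natCast_zsmul]) with h | h | h | h | h | h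
      · left
        rw [hc] at h
        have h3 : ((j : ℤ) - 1) • χ = 0 := by rw [sub_smul, one_smul, ← h, sub_self]
        have := hz _ h3
        omega
      · exfalso
        rw [hc] at h
        have h3 : ((j : ℤ) + 1) • χ = 0 := by
          rw [add_smul, one_smul]
          nth_rewrite 2 [h]
          rw [add_neg_cancel]
        have := hz _ h3
        omega
      · right
        rw [hc, hc] at h
        have h3 : ((j : ℤ) - (2 : ℕ)) • χ = 0 := by rw [sub_smul, h, sub_self]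
        have := hz _ h3
        push_cast at this
        omega
      · exfalso
        rw [hc, hc] at h
        have h3 : ((j : ℤ) + (2 : ℕ)) • χ = 0 := by rw [add_smul, h, neg_add_cancel]
        have := hz _ h3
        push_cast at this
        omega
      · exfalso
        rw [smul_smul, hc] at h
        have h3 : (((2 * j : ℕ) : ℤ) - 1) • χ = 0 := by rw [sub_smul, one_smul, ← h, sub_self]
        have := hz _ h3
        push_cast at this
        omega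
      · exfalso
        rw [smul_smul, hc] at h
        have h3 : (((2 * j : ℕ) : ℤ) + 1) • χ = 0 := by
          rw [add_smul, one_smul]
          nth_rewrite 2 [h]
          rw [add_neg_cancel]
        have := hz _ h3
        push_cast at this
        omega
    have hsep : Sep 𝒜 χ := by
      intro y j j' hj hj' hy hy'
      rcases hj12 y j hj hy with e | e <;> rcases hj12 y j' hj' hy' with e' | e'
      · rw [e, e']
      · exfalso
        rw [e, one_smul] at hy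
        rw [e'] at hy'
        exact (hU y z χ h1 h2 hy).1 hy'
      · exfalso
        rw [e', one_smul] at hy'
        rw [e] at hy
        exact (hU y z χ h1 h2 hy').1 hy
      · rw [e, e']
    exact no_opp H hsep (fun y hy => (hU y z χ h1 h2 hy).2) h1 h2
  have hno : ∀ (a : Fin r → ℤ) (z : FP 𝒜) (j j' : ℕ), 1 ≤ j → 1 ≤ j' → z.Pi (j • a) →
      z.Pi (-(j' • a)) → False := fun a z j j' hj hj' h1 h2 => no_both H hopp hj hj' h1 h2
  exact
    { hX := hX
      hN := hN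
      iso := H.iso
      tor := tor
      mult := fun x ν ω hx0 hx hω v v' hv hw hv' hw' => by
        rcases mult_or_both hX hiso ⟨x, ν, hx0, hx⟩ hω with h | ⟨z, j, j', hj, hj', h1, h2⟩
        · exact h v v' hv hw hv' hw'
        · exact (hno ω z j j' hj hj' h1 h2).elim
      ind := fun x ν ω ω' hx0 hx hω hω' hab => by
        obtain ⟨a, b, ha, -, hab⟩ := hab
        set y : FP 𝒜 := ⟨x, ν, hx0, hx⟩ with hy
        have h1 : y.Pi ω := hω
        have h2 : y.Pi ω' := hω'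
        rcases dich H ⟨y, h1⟩ ⟨y, h2⟩ ha hab with h | h | h | h | h | h
        · exact h
        · rw [h] at h1
          exact (hopp y _ h2 h1).elim
        · rw [h] at h2
          exact (no_double_of_ray hX hiso y h1 h2 (hno ω)).elim
        · rw [h] at h2
          exact (hno ω y 1 2 le_rfl (by norm_num) (by rw [one_smul]; exact h1) h2).elim
        · rw [h] at h1
          exact (no_double_of_ray hX hiso y h2 h1 (hno ω')).elim
        · rw [h] at h1
          exact (hno ω' y 1 2 le_rfl (by norm_num) (by rw [one_smul]; exact h2) h1).elim }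

end

section
variable {r : ℕ} {R : Type} [CommRing R] [Algebra ℂ R]
  {𝒜 : ℕ × (Fin r → ℤ) → Submodule ℂ R} [GradedAlgebra 𝒜]

/-- The theorem: balanced weights (those which occur at some fixed point together with their
opposites) have multiplicity one and do not occur with their doubles. -/
theorem final (hX : IsTorusManifold 𝒜) (hN : NefOnRationalCurves 𝒜)
    (hbal : ∀ y ξ χ, ¬ IsVertex 𝒜 y → IsFixed 𝒜 y ξ → TangentWeight 𝒜 y ξ χ →
      TangentWeight 𝒜 y ξ (-χ) → ∀ x ν, ¬ IsVertex 𝒜 x → IsFixed 𝒜 x ν → TangentWeight 𝒜 x ν χ →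
      ¬ TangentWeight 𝒜 x ν (2 • χ) ∧
      ∀ v v' : R →ₗ[ℂ] ℂ, IsTangent x v → HasWeight 𝒜 ν χ v → IsTangent x v' →
        HasWeight 𝒜 ν χ v' → ∃ c c' : ℂ, (c ≠ 0 ∨ c' ≠ 0) ∧ ∀ h, c * v h + c' * v' h = 0) :
    (∀ χ : Fin r → ℤ, Liftable 𝒜 χ) ∧ IsHomogeneousManifold 𝒜 ∧ IsTransitive 𝒜 := by
  obtain ⟨r', 𝒜', hg, π, hr, ht⟩ := exists_maxTor hX
  have hdom := hX.domain
  have hiso : ∀ x ν, ¬ IsVertex 𝒜 x → IsFixed 𝒜 x ν → ¬ TangentWeight 𝒜 x ν 0 :=
    fun x ν hx0 hx h => (hbal x ν 0 hx0 hx h (by rw [neg_zero]; exact h) x ν hx0 hx h).1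
      (by rw [smul_zero]; exact h)
  have H : N.Hyp 𝒜' := toN (ref_torusManifold hr hX) (ref_nef hr hN) (fun y z χ h1 h2 h3 => by
    have k1 := ref_weight hr h1
    have k2 := ref_weight hr h2
    have k3 := ref_weight hr h3
    rw [map_neg] at k2
    obtain ⟨k4, k5⟩ := hbal z.q (π z.ν) (π χ) (fun h => z.nv ((ref_vertex hr).2 h))
      (ref_fixed hr z.fix) k1 k2 y.q (π y.ν) (fun h => y.nv ((ref_vertex hr).2 h))
      (ref_fixed hr y.fix) k3
    refine ⟨fun h4 => k4 ?_, fun v v' hv hw hv' hw' => k5 v v' hv (ref_hasWeight hr hw) hv'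
      (ref_hasWeight hr hw')⟩
    have k6 := ref_weight hr h4
    rwa [map_nsmul] at k6) ht
  have hI' : ∀ lam : Fin r' → ℤ, Wt 𝒜' lam →
      (∀ l : (Fin r' → ℤ) →+ ℤ, 0 < l lam → ∃ ω, Wt 𝒜' ω ∧ l lam < l ω) → Liftable 𝒜' lam :=
    fun lam _ hint => liftable_of_real fun z hz => Vale.Agent.P280.N2.real_interior H hint z hz
  refine ⟨fun χ => ?_, ref_back hr (homogeneous_of_int H hI')⟩
  by_cases hχ0 : χ = 0
  · subst hχ0
    intro x ν hx0 hx hχ
    exact absurd hχ (hiso x ν hx0 hx)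
  · exact H267.ref_liftable hr hX H.hX hiso hχ0 fun χ' _ => liftable_of_int H hI' χ'

end

end Vale.Agent.P280.H63X
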