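import Vale.Agent.P280.H63X.End
import Vale.Agent.P280.H63X.A05

/-! P280, helper63, route X: **Lemma Z**. If there are two weights (with multiplicities) on the ray
of `a` at a fixed point, some fixed point has weights on both sides of the line of `a`. -/

open DirectSum Vale.Agent.P280.T Vale.Agent.P280.H127

namespace Vale.Agent.P280.H63X

open Vale.Agent.P280.N

variable {r : ℕ} {R : Type} [CommRing R] [IsDomain R] [Algebra ℂ R]
  {𝒜 : ℕ × (Fin r → ℤ) → Submodule ℂ R} [GradedAlgebra 𝒜]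

/-- The ideal of the functions which vanish, near `q`, on the zeros of the elements of `S`. -/
def locI (q : R →ₐ[ℂ] ℂ) (S : Set R) : Ideal R where
  carrier := {x | ∃ t, q t = 1 ∧ t * x ∈ Ideal.span S}
  add_mem' := by
    rintro x x' ⟨t, ht, h⟩ ⟨t', ht', h'⟩
    refine ⟨t * t', by rw [map_mul, ht, ht', mul_one], ?_⟩
    rw [mul_add]
    refine Ideal.add_mem _ ?_ ?_
    · rw [mul_comm t t', mul_assoc]; exact Ideal.mul_mem_left _ _ h
    · rw [mul_assoc]; exact Ideal.mul_mem_left _ _ h'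
  zero_mem' := ⟨1, map_one _, by rw [mul_zero]; exact Ideal.zero_mem _⟩
  smul_mem' := by
    rintro b x ⟨t, ht, h⟩
    refine ⟨t, ht, ?_⟩
    rw [smul_eq_mul, mul_left_comm]
    exact Ideal.mul_mem_left _ _ h

theorem mem_locI {q : R →ₐ[ℂ] ℂ} {S : Set R} {x : R} :
    x ∈ locI q S ↔ ∃ t, q t = 1 ∧ t * x ∈ Ideal.span S := Iff.rfl

/-- **Lemma Z**, over the two lemmas on regular local rings. -/
theorem both_signs_of (hX : IsTorusManifold 𝒜) (hiso : ∀ z : FP 𝒜, ¬ z.Pi 0) (y : FP 𝒜)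
    {a : Fin r → ℤ} (ha0 : a ≠ 0) {n : ℕ} {u : Fin n → R} {wt : Fin n → Fin r → ℤ}
    (G : Gens (coarse 𝒜 (rl (AddMonoidHom.id (Fin r → ℤ)) y.ν)) y.q u wt)
    (hprime : ∀ (J : Set (Fin n)) (a b : R), (∃ t, y.q t = 1 ∧ t * (a * b) ∈ Ideal.span (u '' J)) →
      (∃ t, y.q t = 1 ∧ t * a ∈ Ideal.span (u '' J)) ∨ ∃ t, y.q t = 1 ∧ t * b ∈ Ideal.span (u '' J))
    (hpt : ∀ g : R, y.q g = 0 → ∃ p : R →ₐ[ℂ] ℂ,
      (∀ w, (∀ i : ℕ, w ≠ i • a) → ∀ x ∈ coarse 𝒜 (rl (AddMonoidHom.id (Fin r → ℤ)) y.ν) w,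
        p x = 0) ∧
      (∀ x ∈ coarse 𝒜 (rl (AddMonoidHom.id (Fin r → ℤ)) y.ν) 0, p x = y.q x) ∧ p g = 0 ∧
      ∃ j : ℕ, 1 ≤ j ∧ ∃ z ∈ coarse 𝒜 (rl (AddMonoidHom.id (Fin r → ℤ)) y.ν) (j • a), p z ≠ 0) :
    ∃ z : FP 𝒜, ∃ j j' : ℕ, 1 ≤ j ∧ 1 ≤ j' ∧ z.Pi (j • a) ∧ z.Pi (-(j' • a)) := by
  classical
  have := noeth hX
  by_contra hcon
  push Not at hcon
  have hF := fix_of_isFixed y.fix
  have hz0 : ∀ k : ℤ, k • a = 0 → k = 0 := fun k hk => (smul_eq_zero.1 hk).resolve_right ha0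
  set ℬ := coarse 𝒜 (rl (AddMonoidHom.id (Fin r → ℤ)) y.ν) with hℬ
  set J : Set (Fin n) := {i | ∀ j : ℕ, 1 ≤ j → wt i ≠ j • a} with hJ
  set P : Ideal R := locI y.q (u '' J) with hP
  have hPmul : ∀ x x', x * x' ∈ P → x ∈ P ∨ x' ∈ P := fun x x' h => hprime J x x' h
  -- elements of other weights are in `P`
  have L1 : ∀ w, (∀ i : ℕ, w ≠ i • a) → ∀ x ∈ ℬ w, x ∈ P := by
    intro w hw x hx
    have hw0 : w ≠ 0 := by
      intro h
      exact hw 0 (by rw [h, zero_smul])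
    refine lemmaA hF G (C := {w | w = 0 ∨ ∀ i : ℕ, w ≠ i • a}) (J := J) ?_ (Or.inr hw) hx
      (mem_mx.mpr (hF w hw0 x hx))
    intro w hw i hi
    obtain ⟨j, hj, hj'⟩ : ∃ j : ℕ, 1 ≤ j ∧ wt i = j • a := by
      by_contra h
      push Not at h
      exact hi h
    rw [hj']
    rcases hw with rfl | hw
    · have h1 : ∀ i : ℕ, (0 : Fin r → ℤ) - j • a ≠ i • a := by
        intro i h
        have h2 : ((i : ℤ) + j) • a = 0 := by
          rw [add_smul, natCast_zsmul, natCast_zsmul, ← h]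
          abel
        have := hz0 _ h2
        omega
      exact ⟨Or.inr h1, fun h => h1 0 (by rw [h, zero_smul])⟩
    · have h1 : ∀ i : ℕ, w - j • a ≠ i • a := by
        intro i h
        exact hw (i + j) (by rw [add_smul, ← h]; abel)
      exact ⟨Or.inr h1, fun h => h1 0 (by rw [h, zero_smul])⟩
  -- the points of the cell kill the homogeneous elements of `P`
  have L2 : ∀ p : R →ₐ[ℂ] ℂ, (∀ w, (∀ i : ℕ, w ≠ i • a) → ∀ x ∈ ℬ w, p x = 0) →
      (∀ x ∈ ℬ 0, p x = y.q x) → ∀ w, ∀ x ∈ ℬ w, x ∈ P → p x = 0 := by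
    intro p hp0 hp1 w x hx hxP
    obtain ⟨t, ht, h⟩ := mem_locI.1 hxP
    have h1 := cp_mem_span_set (𝒜 := ℬ) (S := u '' J) (by
      rintro _ ⟨i, -, rfl⟩; exact ⟨wt i, G.hom i⟩) h w
    rw [cp_mul_right ℬ hx, sub_self] at h1
    have h2 : p (cp ℬ 0 t * x) = 0 := by
      have h3 : Ideal.span (u '' J) ≤ RingHom.ker p := by
        rw [Ideal.span_le]
        rintro _ ⟨i, hi, rfl⟩
        by_cases h4 : wt i = 0
        · have h5 := G.hom i
          rw [h4] at h5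
          change p (u i) = 0
          rw [hp1 _ h5]
          exact G.zero i
        · refine hp0 (wt i) (fun j hj => ?_) _ (G.hom i)
          rcases Nat.eq_zero_or_pos j with h0 | h0
          · rw [h0, zero_smul] at hj
            exact h4 hj
          · exact hi j h0 hj
      exact h3 h1
    have h3 : p (cp ℬ 0 t) = 1 := by
      rw [hp1 _ (cp_mem ℬ 0 t), hF.q_cp, ht]
    rwa [map_mul, h3, one_mul] at h2
  have hmemℬ : ∀ d m, ∀ h ∈ 𝒜 (d, m), h ∈ ℬ (m - d • y.ν) := fun d m h hh =>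
    mem_coarse hh (by rw [rl_apply, AddMonoidHom.id_apply])
  -- the end points
  have key : ∀ g : R, y.q g = 0 → ∃ (p : R →ₐ[ℂ] ℂ) (z : FP 𝒜) (N : ℕ),
      (∀ w, (∀ i : ℕ, w ≠ i • a) → ∀ x ∈ ℬ w, p x = 0) ∧ (∀ x ∈ ℬ 0, p x = y.q x) ∧ p g = 0 ∧
      1 ≤ N ∧ z.ν = y.ν + N • a ∧ (∀ d, ∀ h ∈ 𝒜 (d, d • z.ν), z.q h = p h) ∧
      ∀ j : ℕ, 1 ≤ j → ¬ z.Pi (j • a) := by
    intro g hg
    obtain ⟨p, hp0, hp1, hpg, j, hj, x, hx, hpx⟩ := hpt g hg
    obtain ⟨z, N, hN, hν, -, hq, j', hj', hzj'⟩ := exists_end hX y ha0 hp0 hp1 hj hx hpx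
    exact ⟨p, z, N, hp0, hp1, hpg, hN, hν, hq, fun j hj hz => hcon z j j' hj hj' hz hzj'⟩
  -- Claim A
  have claimA : ∀ (p : R →ₐ[ℂ] ℂ) (z : FP 𝒜) (N : ℕ),
      (∀ w, (∀ i : ℕ, w ≠ i • a) → ∀ x ∈ ℬ w, p x = 0) → (∀ x ∈ ℬ 0, p x = y.q x) →
      z.ν = y.ν + N • a → (∀ d, ∀ h ∈ 𝒜 (d, d • z.ν), z.q h = p h) →
      (∀ j : ℕ, 1 ≤ j → ¬ z.Pi (j • a)) →
      ∀ d (j : ℕ), 1 ≤ j → ∀ h ∈ 𝒜 (d, d • z.ν + j • a), h ∈ P := by
    intro p z N hp0 hp1 hν hq hno d j hj h hh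
    have hFz := fix_of_isFixed z.fix
    obtain ⟨n', u', wt', G', hn'⟩ := exists_params_T hX z.nv hFz
    set J' : Set (Fin n') := {k | ∀ j : ℕ, wt' k ≠ -(j • a)} with hJ'
    have hw : ∀ i : ℕ, (j • a : Fin r → ℤ) ≠ -(i • a) := by
      intro i h0
      have h2 : ((j : ℤ) + i) • a = 0 := by
        rw [add_smul, natCast_zsmul, natCast_zsmul, h0, neg_add_cancel]
      have := hz0 _ h2
      omega
    have hw0 : (j • a : Fin r → ℤ) ≠ 0 := fun h0 => hw 0 (by rw [h0, zero_smul, neg_zero])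
    have hhz : h ∈ coarse 𝒜 (rl (AddMonoidHom.id (Fin r → ℤ)) z.ν) (j • a) :=
      mem_coarse hh (by rw [rl_apply, AddMonoidHom.id_apply]; abel)
    obtain ⟨t, ht, hspan⟩ := lemmaA hFz G' (C := {w | ∀ i : ℕ, w ≠ -(i • a)}) (J := J') (by
      intro w hw k hk
      obtain ⟨i, hi⟩ : ∃ i : ℕ, wt' k = -(i • a) := by
        by_contra hcon
        push Not at hcon
        exact hk hcon
      rw [hi]
      have h1 : ∀ i' : ℕ, w - -(i • a) ≠ -(i' • a) := by
        intro i' h0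
        refine hw (i' + i) ?_
        have h2 : w = -(i' • a) + -(i • a) := by rw [← h0]; abel
        rw [h2, add_smul]
        abel
      exact ⟨h1, fun h0 => h1 0 (by rw [h0, zero_smul, neg_zero])⟩) hw hhz
      (mem_mx.mpr (hFz _ hw0 h hhz))
    -- the homogeneous core
    set S : Set R := {x | (∃ i, x ∈ 𝒜 i) ∧ x ∈ P} with hS
    have hSP : Ideal.span S ≤ P := Ideal.span_le.2 fun x hx => hx.2
    have hShom : (Ideal.span S).IsHomogeneous 𝒜 := Ideal.homogeneous_span 𝒜 _ fun x hx => hx.1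
    have huS : Ideal.span (u' '' J') ≤ Ideal.span S := by
      rw [Ideal.span_le]
      rintro _ ⟨k, hk, rfl⟩
      have hZ : ∀ i : ℤ, wt' k ≠ i • a := by
        intro i hi
        rcases le_or_gt i 0 with h0 | h0
        · refine hk (-i).toNat ?_
          rw [hi, ← natCast_zsmul, Int.toNat_of_nonneg (by omega), neg_smul, neg_neg]
        · have h1 : wt' k = i.toNat • a := by
            rw [hi, ← natCast_zsmul, Int.toNat_of_nonneg (by omega)]
          have h2 : wt' k ≠ 0 := by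
            intro h3
            have := hz0 i (by rw [← hi, h3])
            omega
          refine hno i.toNat (by omega) ?_
          have h3 := tangentWeight_of_wt hX z.fix G' hn' h2
          rw [h1] at h3
          exact h3
      have hmem := G'.hom k
      rw [SetLike.mem_coe]
      refine coarse_induction (P := fun x => x ∈ Ideal.span S) (Ideal.zero_mem _)
        (fun a b ha hb => Ideal.add_mem _ ha hb) ?_ hmem
      rintro ⟨d, m⟩ hi x hx
      rw [rl_apply, AddMonoidHom.id_apply] at hi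
      refine Ideal.subset_span ⟨⟨(d, m), hx⟩, L1 (m - d • y.ν) (fun i hi' => ?_) x (hmemℬ d m x hx)⟩
      refine hZ ((i : ℤ) - d * N) ?_
      rw [← hi, hν, smul_add, sub_smul, natCast_zsmul, ← hi', mul_smul, natCast_zsmul,
        natCast_zsmul]
      abel
    have h1 : t * h ∈ Ideal.span S := huS hspan
    obtain ⟨⟨k, m⟩, hk⟩ := exists_comp_ne (𝒜 := 𝒜) (q := z.q) (s := t)
      (by rw [ht]; exact one_ne_zero)
    have hm : m = k • z.ν := z.fix k m _ (decompose 𝒜 t (k, m)).2 hk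
    subst hm
    have h3 := hShom ((k, k • z.ν) + (d, d • z.ν + j • a)) h1
    rw [DirectSum.coe_decompose_mul_add_of_right_mem 𝒜 hh] at h3
    have h4 := hSP h3
    set tk : R := (decompose 𝒜 t (k, k • z.ν) : R) with htk
    have htkm : tk ∈ 𝒜 (k, k • z.ν) := (decompose 𝒜 t (k, k • z.ν)).2
    rcases hPmul _ _ h4 with h5 | h5
    · exfalso
      have h6 := L2 p hp0 hp1 _ tk (hmemℬ _ _ _ htkm) h5
      rw [← hq k tk htkm] at h6
      exact hk h6
    · exact h5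
  -- Claim B
  have claimB : ∀ (p : R →ₐ[ℂ] ℂ) (z : FP 𝒜) (N : ℕ),
      (∀ w, (∀ i : ℕ, w ≠ i • a) → ∀ x ∈ ℬ w, p x = 0) → (∀ x ∈ ℬ 0, p x = y.q x) →
      z.ν = y.ν + N • a → (∀ d, ∀ h ∈ 𝒜 (d, d • z.ν), z.q h = p h) →
      (∀ j : ℕ, 1 ≤ j → ¬ z.Pi (j • a)) →
      ∀ d, ∀ h ∈ 𝒜 (d, d • z.ν), z.q h = 0 → h ∈ P := by
    intro p z N hp0 hp1 hν hq hno d h hh hzh
    obtain ⟨f, M, U, wt', n', kk, du, u', hf, hf1, -, -, -, -, hpi, hu', hmx⟩ :=
      hcoords hX z (hiso z)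
    obtain ⟨k2, s2, hs2, hs2q, hspan⟩ := H899.exists_r' z.fix hf hf1 (fun i => (hu' i).1)
      (fun i => (hu' i).2.1) hmx
    obtain ⟨b, hb, hsum⟩ := H899.span_hom (fun i => (hu' i).1) (hspan _ h hh hzh)
      (SetLike.mul_mem_graded hs2 hh)
    have h1 : s2 * h ∈ P := by
      rw [hsum]
      refine Ideal.sum_mem _ fun i _ => ?_
      by_cases hi : ∃ j : ℕ, 1 ≤ j ∧ wt' (kk i) = -(j • a)
      · obtain ⟨j, hj, hij⟩ := hi
        rcases hb i with ⟨⟨kd, km⟩, hk, hbj⟩ | hbj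
        · refine Ideal.mul_mem_left _ _ (claimA p z N hp0 hp1 hν hq hno kd j hj (b i) ?_)
          have h2 := congrArg Prod.fst hk
          have h3 := congrArg Prod.snd hk
          simp only [Prod.fst_add, Prod.snd_add] at h2 h3
          have h4 : km = kd • z.ν + j • a := by
            have h5 : km = k2 • z.ν + d • z.ν - (du i • z.ν + wt' (kk i)) := by
              rw [← h3]
              abel
            have h6 : (du i + kd) • z.ν = (k2 + d) • z.ν := by rw [h2]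
            rw [add_smul, add_smul] at h6
            rw [h5, ← h6, hij]
            abel
          rw [h4] at hbj
          exact hbj
        · rw [hbj, mul_zero]
          exact Ideal.zero_mem _
      · push Not at hi
        refine Ideal.mul_mem_right _ _ (L1 (du i • z.ν + wt' (kk i) - du i • y.ν) (fun j hj => ?_)
          _ (hmemℬ _ _ _ (hu' i).1))
        have h2 : wt' (kk i) = ((j : ℤ) - du i * N) • a := by
          have h3 : wt' (kk i) = j • a - (du i • z.ν - du i • y.ν) := by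
            rw [← hj]
            abel
          rw [h3, hν, smul_add, add_sub_cancel_left, sub_smul, mul_smul, natCast_zsmul,
            natCast_zsmul, natCast_zsmul]
        have h3 : z.Pi (wt' (kk i)) := (hpi _).2 ⟨i, rfl⟩
        rcases lt_trichotomy ((j : ℤ) - du i * N) 0 with h0 | h0 | h0
        · refine hi (-((j : ℤ) - du i * N)).toNat (by omega) ?_
          rw [h2, ← natCast_zsmul, Int.toNat_of_nonneg (by omega), neg_smul, neg_neg]
        · rw [h2, h0, zero_smul] at h3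
          exact hiso z h3
        · refine hno ((j : ℤ) - du i * N).toNat (by omega) ?_
          rw [← natCast_zsmul, Int.toNat_of_nonneg (by omega), ← h2]
          exact h3
    rcases hPmul _ _ h1 with h5 | h5
    · exfalso
      have h6 := L2 p hp0 hp1 _ s2 (hmemℬ _ _ _ hs2) h5
      rw [← hq k2 s2 hs2] at h6
      exact hs2q h6
    · exact h5
  -- two points
  obtain ⟨p1, z1, N1, hp10, hp11, -, hN1, hν1, hq1, hno1⟩ := key 0 (map_zero _)
  obtain ⟨g, hg, hg1⟩ := exists_deg_one_ne hX.gen z1.nv z1.fix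
  have hgy : y.q g = 0 := by
    by_contra hne
    have h1 := y.fix _ _ g hg hne
    rw [hν1, one_smul] at h1
    have h2 : (N1 : ℤ) • a = 0 := by
      rw [natCast_zsmul]
      exact add_eq_left.1 h1
    have := hz0 _ h2
    omega
  have hp1g : p1 g ≠ 0 := by
    rw [← hq1 1 g (by rw [one_smul]; exact hg)]
    exact hg1
  have hgP : g ∉ P := fun h => hp1g (L2 p1 hp10 hp11 _ g (hmemℬ _ _ _ hg) h)
  obtain ⟨p2, z2, N2, hp20, hp21, hp2g, hN2, hν2, hq2, hno2⟩ := key g hgy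
  obtain ⟨g', hg', hg'1⟩ := exists_deg_one_ne hX.gen z2.nv z2.fix
  have hp2g' : p2 g' ≠ 0 := by
    rw [← hq2 1 g' (by rw [one_smul]; exact hg')]
    exact hg'1
  have hg'P : g' ∉ P := fun h => hp2g' (L2 p2 hp20 hp21 _ g' (hmemℬ _ _ _ hg') h)
  rcases lt_trichotomy N1 N2 with hlt | heq | hlt
  · refine hg'P (claimA p1 z1 N1 hp10 hp11 hν1 hq1 hno1 1 (N2 - N1) (by omega) g' ?_)
    have h1 : (1 : ℕ) • z1.ν + (N2 - N1) • a = z2.ν := by
      have h2 : (N2 - N1) • a + N1 • a = N2 • a := by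
        rw [← add_smul, Nat.sub_add_cancel hlt.le]
      rw [one_smul, hν1, hν2, ← h2]
      abel
    rw [h1]
    exact hg'
  · have hz12 : z1.ν = z2.ν := by rw [hν1, hν2, heq]
    refine hgP (claimB p2 z2 N2 hp20 hp21 hν2 hq2 hno2 1 g (by
      rw [one_smul, ← hz12]; exact hg) ?_)
    rw [hq2 1 g (by rw [one_smul, ← hz12]; exact hg)]
    exact hp2g
  · refine hgP (claimA p2 z2 N2 hp20 hp21 hν2 hq2 hno2 1 (N1 - N2) (by omega) g ?_)
    have h1 : (1 : ℕ) • z2.ν + (N1 - N2) • a = z1.ν := by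
      have h2 : (N1 - N2) • a + N2 • a = N1 • a := by
        rw [← add_smul, Nat.sub_add_cancel hlt.le]
      rw [one_smul, hν1, hν2, ← h2]
      abel
    rw [h1]
    exact hg

end Vale.Agent.P280.H63X
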